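import Vale.Agent.P167.H638.G2.Near

/-!
# P167, Stage II, [GEO-ASM2] (4): `GeoL` from the two sides
-/

set_option autoImplicit false
set_option linter.unusedVariables false

open MeasureTheory ProbabilityTheory Filter Topology Set Metric

namespace Vale.Agent.P167.H638.Q.G2

open Vale.Agent.P167.H192 (cfg ro rf odd_rf)
open Vale.Agent.P153.R2
open Vale.Agent.P153.R2.R1 (IsU)
open Vale.Agent.P167.E6
open Vale.Agent.P167.H411 (Set6 exn good_ev)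
open Vale.Agent.P167.H756
open Vale.Agent.P167.H947 (flow)
open Vale.Agent.P167.H212 (pz)
open Vale.Agent.P167.H212.L (Sh2 ZDom GeoL GeoLAt)
open Vale.Agent.P167.H397.Q (LZ)

open Classical in
/-- A realization, if there is one. -/
noncomputable def rel (Re : Sh2 → ℕ → ℤ × ℤ → ZDom → Prop) (P : Sh2) (N : ℕ) (s : ℤ × ℤ) : ZDom :=
  if h : ∃ D, Re P N s D then h.choose else ⟨1, fun _ => (0, 0), 0, ∅, (0, 0)⟩

theorem rel_spec {Re : Sh2 → ℕ → ℤ × ℤ → ZDom → Prop} {P : Sh2} {N : ℕ} {s : ℤ × ℤ}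
    (h : ∃ D, Re P N s D) : Re P N s (rel Re P N s) := by
  rw [rel, dif_pos h]
  exact h.choose_spec

theorem po_rb {h : ℝ} {ψ : ℂ → ℂ} {W : ℝ → ℝ} {t Y Rb Rb' : ℝ} {Q P : Set ℂ} {a p : ℂ}
    (H : PO h ψ W t Y Rb Q P a p) (hb : Rb ≤ Rb') : PO h ψ W t Y Rb' Q P a p :=
  { H with bdd := fun z hz => (H.bdd z hz).trans hb }

/-- **[GEO-ASM2]** 212's `GeoL` from the two sides of the comparison and the existence of
realizations. -/
theorem geoL_of_side {Re : Sh2 → ℕ → ℤ × ℤ → ZDom → Prop} {q : ℝ} (hq : 0 < q)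
    (hRe : ∀ P : Sh2, P.Ok → ∃ N₀ : ℕ, ∀ N, N₀ ≤ N → 4 ∣ N → ∀ s : ℤ × ℤ, Odd (s.1 + s.2) →
      ∃ D, Re P N s D)
    (h1 : Side Re q true) (h2 : Side Re q false) : GeoL Re q := by
  intro Φ ψ δ N k p S ψn H6 T R hT hR
  obtain ⟨c₁, hc₁⟩ := h1 Φ ψ δ N k p S ψn H6 T R hT hR
  obtain ⟨c₂, hc₂⟩ := h2 Φ ψ δ N k p S ψn H6 T R hT hR
  obtain ⟨Y, hYdef⟩ : ∃ Y : ℝ, Y = 8 * (R + 1) + 64 * (T + 1) + 1 := ⟨_, rfl⟩
  have hY0 : 0 < Y := by rw [hYdef]; positivity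
  have hY1 : 8 * (R + 1) ≤ Y := by rw [hYdef]; linarith
  have hY2' : 64 * (T + 1) + 1 ≤ Y := by rw [hYdef]; linarith
  have hY2 : 64 * (T + 1) ≤ Y ^ 2 := by nlinarith
  refine ⟨max (max c₁ c₂) Y, fun b hb θ hθ ε hε => ?_⟩
  have hbc₁ : c₁ ≤ b := ((le_max_left _ _).trans (le_max_left _ _)).trans hb
  have hbc₂ : c₂ ≤ b := ((le_max_right _ _).trans (le_max_left _ _)).trans hb
  have hbY : Y ≤ b := (le_max_right _ _).trans hb
  have hb1 : 8 * (R + 1) ≤ b := hY1.trans hbY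
  have hb2 : 64 * (T + 1) ≤ b ^ 2 := by
    have : 64 * (T + 1) + 1 ≤ b := hY2'.trans hbY
    nlinarith
  obtain ⟨R₁, hR₁, hs₁⟩ := hc₁ b hbc₁ θ hθ Y hY0 hY1 hY2
  obtain ⟨R₂, hR₂, hs₂⟩ := hc₂ b hbc₂ θ hθ Y hY0 hY1 hY2
  obtain ⟨h, hh, s₀, hs₀, hnear⟩ := sh_close H6 (Rb := max R₁ R₂) hT hR hY0 hY1 hY2
    (hR₁.trans (le_max_left _ _)) hb1 hb2 hθ hε
  obtain ⟨s₁, hs₁0, hs₁⟩ := hs₁ h hh (ε / 2) (by positivity)
  obtain ⟨s₂, hs₂0, hs₂⟩ := hs₂ h hh (ε / 2) (by positivity)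
  obtain ⟨s, hsdef⟩ : ∃ s, s = min s₀ (min s₁ s₂) := ⟨_, rfl⟩
  have hs : 0 < s := by rw [hsdef]; positivity
  have hss₀ : s ≤ s₀ := by rw [hsdef]; exact min_le_left _ _
  have hss₁ : s ≤ s₁ := by rw [hsdef]; exact (min_le_right _ _).trans (min_le_left _ _)
  have hss₂ : s ≤ s₂ := by rw [hsdef]; exact (min_le_right _ _).trans (min_le_right _ _)
  obtain ⟨B, hnear⟩ := hnear s hs hss₀
  have hδ0 : ∀ n, 0 < δ n := fun n => (H6.appr.1 n).1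
  have hδt : Tendsto δ atTop (𝓝 0) := H6.appr.2.1
  choose f hf using fun n => exists_face (hδ0 n) (ψn n (pz b θ))
  have hfin : {P : Sh2 | P.Ok ∧ ∀ v ∈ P.S, |v.1| ≤ B ∧ |v.2| ≤ B}.Finite :=
    (fin_sh B).subset fun P hP => ⟨⟨hP.1.poly, hP.1.encl, hP.1.k_pos, hP.1.k_lt⟩, hP.2⟩
  have hodd : ∀ n, Odd ((rf (f n)).1 + (rf (f n)).2) := fun n =>
    Int.not_even_iff_odd.1 (odd_rf (f n))
  have hN4 : ∀ n, 4 ∣ NN s (δ n) := fun n => dvd_mul_right _ _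
  have hNt := NN_tend hs hδ0 hδt
  have hre : ∀ᶠ n in atTop, ∀ P ∈ {P : Sh2 | P.Ok ∧ ∀ v ∈ P.S, |v.1| ≤ B ∧ |v.2| ≤ B},
      Re P (NN s (δ n)) (rf (f n)) (rel Re P (NN s (δ n)) (rf (f n))) := by
    refine (Filter.eventually_all_finite hfin).2 fun P hP => ?_
    obtain ⟨N₀, hN₀⟩ := hRe P hP.1
    filter_upwards [hNt.eventually_ge_atTop N₀] with n hn
    exact rel_spec (hN₀ _ hn (hN4 n) _ (hodd n))
  refine ⟨{P | P.Ok ∧ ∀ v ∈ P.S, |v.1| ≤ B ∧ |v.2| ≤ B}, fun n => NN s (δ n), fun n => rf (f n),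
    fun n P => rel Re P (NN s (δ n)) (rf (f n)), hfin, fun P hP => hP.1, hNt, hN4, hodd, hre, ?_⟩
  filter_upwards [drv H6 hT hR.le one_pos, good_ev H6.appr, hs₁ s hs hss₁, hs₂ s hs hss₂, hre,
    hnear] with n n1 n2 n3 n4 n5 n6
  have hU := H6.uni n n2
  have hwf := Vale.Agent.P167.H411.DC.expl_wf (wf_of H6 n2) hU
  have hfinC : (exn δ N k p S ψn n).C.Finite := hwf.fin
  have hwpos : ∀ a ∈ (exn δ N k p S ψn n).C, 0 < QE.wq q (N n) (p n) (k n) (S n) a :=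
    fun a _ => QE.wq_pos hq _ _ _ _ a
  refine ⟨f n, fun κ hκ => ?_⟩
  have e1 := n3 (f n) (hf n) κ hκ
  have e2 := n4 (f n) (hf n) κ hκ
  refine (QE.exW_mono hfinC hwpos (g := fun A => ({A | ¬ SideAt Re q true h (ε / 2) Y R₁ (δ n)
    (ψn n) ((exn δ N k p S ψn n).W A) ((exn δ N k p S ψn n).c A (κ A)) (NN s (δ n)) (f n)
    (QE.cexW (exn δ N k p S ψn n) (QE.wq q (N n) (p n) (k n) (S n))
      (fun A' => (LZ (ro (p n (-1))) (rf (f n))).indicator 1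
        (cfg (Final.wiredOpen (p n) (k n) A'))) A (κ A))}.indicator 1 A : ℝ) +
    ({A | ¬ SideAt Re q false h (ε / 2) Y R₂ (δ n)
    (ψn n) ((exn δ N k p S ψn n).W A) ((exn δ N k p S ψn n).c A (κ A)) (NN s (δ n)) (f n)
    (QE.cexW (exn δ N k p S ψn n) (QE.wq q (N n) (p n) (k n) (S n))
      (fun A' => (LZ (ro (p n (-1))) (rf (f n))).indicator 1
        (cfg (Final.wiredOpen (p n) (k n) A'))) A (κ A))}.indicator 1 A : ℝ)) ?_).trans ?_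
  swap
  · rw [QE.exW_add hfinC]
    exact (add_le_add e1 e2).trans (by linarith)
  intro A hA
  set v : ℝ := QE.cexW (exn δ N k p S ψn n) (QE.wq q (N n) (p n) (k n) (S n))
      (fun A' => (LZ (ro (p n (-1))) (rf (f n))).indicator 1
        (cfg (Final.wiredOpen (p n) (k n) A'))) A (κ A) with hv
  have hnn : ∀ (X : Set (Finset (Sym2 (ℤ × ℤ)))) (a : Finset (Sym2 (ℤ × ℤ))),
      0 ≤ (X.indicator 1 a : ℝ) := fun X a =>
    Set.indicator_nonneg (fun _ _ => zero_le_one) a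
  by_cases g1 : SideAt Re q true h (ε / 2) Y R₁ (δ n) (ψn n) ((exn δ N k p S ψn n).W A)
      ((exn δ N k p S ψn n).c A (κ A)) (NN s (δ n)) (f n) v
  swap
  · refine (Set.indicator_le_self' (fun _ _ => zero_le_one) _).trans ?_
    have g1' : A ∈ {A | ¬ SideAt Re q true h (ε / 2) Y R₁ (δ n)
      (ψn n) ((exn δ N k p S ψn n).W A) ((exn δ N k p S ψn n).c A (κ A)) (NN s (δ n)) (f n)
      (QE.cexW (exn δ N k p S ψn n) (QE.wq q (N n) (p n) (k n) (S n))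
        (fun A' => (LZ (ro (p n (-1))) (rf (f n))).indicator 1
          (cfg (Final.wiredOpen (p n) (k n) A'))) A (κ A))} := g1
    rw [Set.indicator_of_mem g1']
    have := hnn {A | ¬ SideAt Re q false h (ε / 2) Y R₂ (δ n)
      (ψn n) ((exn δ N k p S ψn n).W A) ((exn δ N k p S ψn n).c A (κ A)) (NN s (δ n)) (f n)
      (QE.cexW (exn δ N k p S ψn n) (QE.wq q (N n) (p n) (k n) (S n))
        (fun A' => (LZ (ro (p n (-1))) (rf (f n))).indicator 1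
          (cfg (Final.wiredOpen (p n) (k n) A'))) A (κ A))} A
    simp only [Pi.one_apply]
    linarith
  by_cases g2 : SideAt Re q false h (ε / 2) Y R₂ (δ n) (ψn n) ((exn δ N k p S ψn n).W A)
      ((exn δ N k p S ψn n).c A (κ A)) (NN s (δ n)) (f n) v
  swap
  · refine (Set.indicator_le_self' (fun _ _ => zero_le_one) _).trans ?_
    have g2' : A ∈ {A | ¬ SideAt Re q false h (ε / 2) Y R₂ (δ n)
      (ψn n) ((exn δ N k p S ψn n).W A) ((exn δ N k p S ψn n).c A (κ A)) (NN s (δ n)) (f n)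
      (QE.cexW (exn δ N k p S ψn n) (QE.wq q (N n) (p n) (k n) (S n))
        (fun A' => (LZ (ro (p n (-1))) (rf (f n))).indicator 1
          (cfg (Final.wiredOpen (p n) (k n) A'))) A (κ A))} := g2
    rw [Set.indicator_of_mem g2']
    have := hnn {A | ¬ SideAt Re q true h (ε / 2) Y R₁ (δ n)
      (ψn n) ((exn δ N k p S ψn n).W A) ((exn δ N k p S ψn n).c A (κ A)) (NN s (δ n)) (f n)
      (QE.cexW (exn δ N k p S ψn n) (QE.wq q (N n) (p n) (k n) (S n))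
        (fun A' => (LZ (ro (p n (-1))) (rf (f n))).indicator 1
          (cfg (Final.wiredOpen (p n) (k n) A'))) A (κ A))} A
    simp only [Pi.one_apply]
    linarith
  -- a good history
  rw [Set.indicator_of_notMem]
  · exact add_nonneg (hnn _ _) (hnn _ _)
  rw [mem_ofPred_eq, not_not]
  obtain ⟨k1, k2⟩ := hκ.2 A hA
  obtain ⟨HD, -⟩ := n1 A hA (κ A) k1 k2
  obtain ⟨P, hP, ⟨Q, hQ⟩, hPv⟩ := g1
  obtain ⟨P', hP', ⟨Q', hQ'⟩, hPv'⟩ := g2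
  obtain ⟨a1, a2, a3⟩ := n6 (f n) (hf n) _ _ HD P hP ⟨Q, po_rb hQ (le_max_left _ _)⟩
  obtain ⟨b1, b2, b3⟩ := n6 (f n) (hf n) _ _ HD P' hP' ⟨Q', po_rb hQ' (le_max_right _ _)⟩
  have m1 : P ∈ {P : Sh2 | P.Ok ∧ ∀ v ∈ P.S, |v.1| ≤ B ∧ |v.2| ≤ B} :=
    ⟨⟨hP.poly, hP.encl, hP.k_pos, hP.k_lt, a1⟩, a2⟩
  have m2 : P' ∈ {P : Sh2 | P.Ok ∧ ∀ v ∈ P.S, |v.1| ≤ B ∧ |v.2| ≤ B} :=
    ⟨⟨hP'.poly, hP'.encl, hP'.k_pos, hP'.k_lt, b1⟩, b2⟩
  have l1 := hPv _ (n5 P m1)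
  have l2 := hPv' _ (n5 P' m2)
  rw [if_pos rfl] at l1
  rw [if_neg (by decide)] at l2
  refine ⟨P, m1, P', m2, ?_, ?_, ?_⟩
  · exact le_trans (by linarith) l1
  · exact l2.trans (by linarith)
  · rintro Q₀ (rfl | rfl)
    · exact a3
    · exact b3

end Vale.Agent.P167.H638.Q.G2
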