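import Vale.Agent.P167.H756.S5
import Vale.Agent.P167.H756.Exn
import Vale.Agent.P167.H756.ThmD
import Vale.Agent.P167.H212.ArgFlow

/-!
# P167, Stage II, [GEO-ASM2] (1): the conformal part

* `ball_ev` : uniform openness of the uniformizers `ψn n` at an interior point;
* `flow_lip` : the Loewner flow is Lipschitz near a far point;
* `arg_close` : uniform continuity of the argument;
* `isU_scale` : scaling of the uniformizers of lattice polygons.
-/

set_option autoImplicit false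

open MeasureTheory ProbabilityTheory Filter Topology Set Metric

namespace Vale.Agent.P167.H638.Q.G2

open Vale.Agent.P153.R2
open Vale.Agent.P153.R2.R1 (IsU)
open Vale.Agent.P153.R2.L1 (HH)
open Vale.Agent.P164 (loewnerDomain Zf)
open Vale.Agent.P167.E6 Vale.Agent.P167.H411 Vale.Agent.P167.H756
open Vale.Agent.P167.H947 (flow surv flow_gf surv_inter differentiableOn_flow)
open Vale.Agent.P167.H212 (pz norm_pz im_pz)

/-! ### Uniform openness -/

section

variable {Φ : (ℝ × ℝ) ≃ₜ (ℝ × ℝ)} {ψ : ℂ → ℂ} {δ : ℕ → ℝ} {N k : ℕ → ℕ}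
  {p : ∀ n, ZMod (N n) → ℤ × ℤ} {S : ℕ → Finset (ℤ × ℤ)} {ψn : ℕ → ℂ → ℂ}

/-- The images of a fixed disc contain discs of a fixed radius. -/
theorem ball_ev (H : Set6 Φ ψ δ N k p S ψn) {ζ : ℂ} {r : ℝ} (hr : 0 < r) (hζ : r < ζ.im) :
    ∃ c > 0, ∀ᶠ n in atTop, ball (ψn n ζ) c ⊆ ψn n '' closedBall ζ r := by
  have hsub : closedBall ζ r ⊆ {z : ℂ | 0 < z.im} := by
    intro z hz
    rw [mem_closedBall, dist_eq_norm] at hz
    have h1 := (Complex.abs_im_le_norm (z - ζ)).trans hz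
    rw [Complex.sub_im] at h1
    have h2 := (abs_le.1 h1).1
    show 0 < z.im
    linarith
  have hζm : ζ ∈ closedBall ζ r := mem_closedBall_self hr.le
  have hψd : DifferentiableOn ℂ ψ {z : ℂ | 0 < z.im} := H.unif.1
  have hψi : InjOn ψ {z : ℂ | 0 < z.im} := H.unif.2.1
  -- the minimum on the circle
  have hne : (sphere ζ r).Nonempty := NormedSpace.sphere_nonempty.2 hr.le
  have hss : sphere ζ r ⊆ {z : ℂ | 0 < z.im} := sphere_subset_closedBall.trans hsub
  obtain ⟨z₀, hz₀, hmin⟩ := (isCompact_sphere ζ r).exists_isMinOn (f := fun z => ‖ψ z - ψ ζ‖) hne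
    (((hψd.continuousOn.mono hss).sub continuousOn_const).norm)
  have hm : 0 < ‖ψ z₀ - ψ ζ‖ := by
    rw [norm_pos_iff, sub_ne_zero]
    intro h
    have h1 := hψi (hss hz₀) (hsub hζm) h
    rw [h1, mem_sphere, dist_self] at hz₀
    exact hr.ne hz₀
  set m := ‖ψ z₀ - ψ ζ‖ with hmdef
  refine ⟨m / 4, by positivity, ?_⟩
  filter_upwards [H.conv (m / 4) (by positivity), good_ev H.appr] with n h1 h2
  have hU := H.isU n h2
  have hd : DiffContOnCl ℂ (ψn n) (ball ζ r) := by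
    refine DifferentiableOn.diffContOnCl ?_
    rw [closure_ball ζ hr.ne']
    exact hU.diff.mono hsub
  have h3 : ∀ z ∈ sphere ζ r, m / 2 ≤ ‖ψn n z - ψn n ζ‖ := by
    intro z hz
    have h4 := h1 z (le_of_lt (hss hz))
    have h5 := h1 ζ (le_of_lt (hsub hζm))
    have h6 : m ≤ ‖ψ z - ψ ζ‖ := hmin hz
    rw [dist_eq_norm] at h4 h5
    have h7 : ‖ψ z - ψ ζ‖ ≤ ‖ψn n z - ψn n ζ‖ + ‖ψn n z - ψ z‖ + ‖ψn n ζ - ψ ζ‖ := by
      have e : ψ z - ψ ζ = (ψn n z - ψn n ζ) - (ψn n z - ψ z) + (ψn n ζ - ψ ζ) := by ring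
      rw [e]
      exact (norm_add_le _ _).trans (add_le_add_left (norm_sub_le _ _) _)
    linarith
  have h4 := hd.ball_subset_image_closedBall hr h3 ?_
  · have e : m / 2 / 2 = m / 4 := by ring
    rwa [e] at h4
  · have h5 : ∀ᶠ z in 𝓝[≠] ζ, ψn n z ≠ ψn n ζ := by
      have h6 : ∀ᶠ z in 𝓝[≠] ζ, z ∈ ball ζ r :=
        nhdsWithin_le_nhds (ball_mem_nhds ζ hr)
      filter_upwards [h6, self_mem_nhdsWithin] with z hz hz' he
      exact hz' (hU.inj (hsub (ball_subset_closedBall hz)) (hsub hζm) he)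
    exact (h5.frequently).filter_mono nhdsWithin_le_nhds

end

/-! ### The flow -/

variable {T R : ℝ} {W : ℝ → ℝ} {t : ℝ}

/-- The flow is Lipschitz near a far point. -/
theorem flow_lip (H : Drv T R W t) {ζ : ℂ} (hζ : 0 < ‖ζ‖) (h1 : 8 * R ≤ ‖ζ‖)
    (h2 : 64 * T ≤ ‖ζ‖ ^ 2) {z : ℂ} (hz : ‖z - ζ‖ < ‖ζ‖ / 4) :
    ‖flow W t z - flow W t ζ‖ ≤ 4 * ‖z - ζ‖ := by
  have hfar : ∀ w ∈ ball ζ (‖ζ‖ / 4 + ‖ζ‖ / 4), w ∈ surv W t ∧ ‖flow W t w - w‖ ≤ 3 / 8 * ‖ζ‖ := by
    intro w hw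
    have e : ‖ζ‖ / 4 + ‖ζ‖ / 4 = ‖ζ‖ / 2 := by ring
    rw [e, mem_ball, dist_eq_norm] at hw
    have k1 : ‖ζ‖ / 2 ≤ ‖w‖ := by
      have := norm_sub_norm_le ζ w
      rw [← norm_neg (w - ζ), neg_sub] at hw
      linarith
    have k2 : ‖w‖ ≤ 3 / 2 * ‖ζ‖ := by
      have := norm_sub_norm_le w ζ
      linarith
    have k3 : 0 < ‖w‖ := by linarith
    obtain ⟨a1, -, a2, -⟩ := H.far (z := w) k3 (by linarith) (by nlinarith)
    exact ⟨a1, by linarith⟩
  obtain ⟨-, hl⟩ := lip_of_bdd (f := fun w => flow W t w - w) (x := ζ) (ρ := ‖ζ‖ / 4)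
    (s := ‖ζ‖ / 4) (B := 3 / 8 * ‖ζ‖) (by positivity)
    (((differentiableOn_flow H.nn H.cont.continuousOn).mono fun w hw => (hfar w hw).1).sub
      differentiableOn_id) (fun w hw => (hfar w hw).2)
  have h3 := hl ζ (mem_ball_self (by positivity)) z (by rw [mem_ball, dist_eq_norm]; exact hz)
  have e : 3 / 8 * ‖ζ‖ / (‖ζ‖ / 4 / 2) = 3 := by field_simp; norm_num
  rw [e] at h3
  have e2 : flow W t z - flow W t ζ = ((flow W t z - z) - (flow W t ζ - ζ)) + (z - ζ) := by ring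
  rw [e2]
  exact (norm_add_le _ _).trans (by linarith)

/-- The argument is uniformly continuous away from the real axis. -/
theorem arg_close {y₀ M ε : ℝ} (hy : 0 < y₀) (hε : 0 < ε) :
    ∃ κ > 0, ∀ u w : ℂ, y₀ ≤ u.im → ‖u‖ ≤ M → ‖w - u‖ ≤ κ → |w.arg - u.arg| ≤ ε := by
  have hK : IsCompact {u : ℂ | y₀ / 2 ≤ u.im ∧ ‖u‖ ≤ M + y₀} := by
    refine Metric.isCompact_of_isClosed_isBounded ?_ ?_
    · exact (isClosed_le continuous_const Complex.continuous_im).inter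
        (isClosed_le continuous_norm continuous_const)
    · exact (isBounded_closedBall (x := (0 : ℂ)) (r := M + y₀)).subset fun u hu => by
        rw [mem_closedBall_zero_iff]; exact hu.2
  have hc : ContinuousOn Complex.arg {u : ℂ | y₀ / 2 ≤ u.im ∧ ‖u‖ ≤ M + y₀} := fun u hu =>
    (Complex.continuousAt_arg (Complex.mem_slitPlane_iff.2 (Or.inr (by
      have := hu.1
      have : 0 < u.im := by linarith
      exact this.ne')))).continuousWithinAt
  have hu := hK.uniformContinuousOn_of_continuous hc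
  rw [Metric.uniformContinuousOn_iff] at hu
  obtain ⟨δ, hδ, h⟩ := hu ε hε
  refine ⟨min (δ / 2) (y₀ / 2), by positivity, fun u w h1 h2 h3 => ?_⟩
  have h4 : ‖w - u‖ ≤ y₀ / 2 := h3.trans (min_le_right _ _)
  have h5 : ‖w - u‖ < δ := lt_of_le_of_lt (h3.trans (min_le_left _ _)) (by linarith)
  have h6 := (Complex.abs_im_le_norm (w - u)).trans h4
  rw [Complex.sub_im] at h6
  have h7 := (abs_le.1 h6).1
  have h8 : ‖w‖ ≤ M + y₀ := by
    have := norm_sub_norm_le w u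
    linarith
  have h9 := h w ⟨by linarith, h8⟩ u ⟨by linarith, by linarith⟩ (by rw [dist_eq_norm]; exact h5)
  rw [Real.dist_eq] at h9
  exact h9.le

/-! ### Scaling -/

theorem region_scale {l : ℝ} (hl : 0 < l) (S : Finset (ℤ × ℤ)) :
    region l S = (fun z : ℂ => (l : ℂ) * z) '' region 1 S := by
  ext z
  constructor
  · rintro ⟨f, hf, h1, h2, h3, h4⟩
    refine ⟨(l : ℂ)⁻¹ * z, ⟨f, hf, ?_, ?_, ?_, ?_⟩, ?_⟩
    · rw [← Complex.ofReal_inv, Complex.re_ofReal_mul, one_mul, inv_mul_eq_div, le_div_iff₀ hl]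
      linarith
    · rw [← Complex.ofReal_inv, Complex.re_ofReal_mul, one_mul, inv_mul_eq_div, div_le_iff₀ hl]
      linarith
    · rw [← Complex.ofReal_inv, Complex.im_ofReal_mul, one_mul, inv_mul_eq_div, le_div_iff₀ hl]
      linarith
    · rw [← Complex.ofReal_inv, Complex.im_ofReal_mul, one_mul, inv_mul_eq_div, div_le_iff₀ hl]
      linarith
    · have : (l : ℂ) ≠ 0 := by exact_mod_cast hl.ne'
      simp only
      rw [mul_inv_cancel_left₀ this]
  · rintro ⟨w, ⟨f, hf, h1, h2, h3, h4⟩, rfl⟩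
    rw [one_mul] at h1 h2 h3 h4
    refine ⟨f, hf, ?_, ?_, ?_, ?_⟩
    · simp only; rw [Complex.re_ofReal_mul]; exact mul_le_mul_of_nonneg_left h1 hl.le
    · simp only; rw [Complex.re_ofReal_mul]; exact mul_le_mul_of_nonneg_left h2 hl.le
    · simp only; rw [Complex.im_ofReal_mul]; exact mul_le_mul_of_nonneg_left h3 hl.le
    · simp only; rw [Complex.im_ofReal_mul]; exact mul_le_mul_of_nonneg_left h4 hl.le

theorem interior_scale {l : ℝ} (hl : 0 < l) (S : Finset (ℤ × ℤ)) :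
    interior (region l S) = (fun z : ℂ => (l : ℂ) * z) '' interior (region 1 S) := by
  have hl' : (l : ℂ) ≠ 0 := by exact_mod_cast hl.ne'
  rw [region_scale hl]
  exact ((Homeomorph.mulLeft₀ (l : ℂ) hl').image_interior (region 1 S)).symm

theorem isU_scale {l : ℝ} (hl : 0 < l) {S : Finset (ℤ × ℤ)} {a b : ℂ} {φ : ℂ → ℂ}
    (h : IsU φ (interior (region l S)) (l * a) (l * b)) :
    IsU (fun z => (l : ℂ)⁻¹ * φ z) (interior (region 1 S)) a b := by
  have hl' : (l : ℂ) ≠ 0 := by exact_mod_cast hl.ne'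
  refine ⟨h.diff.const_mul _, ?_, ?_, ?_, ?_, ?_⟩
  · intro x hx y hy e
    exact h.inj hx hy (mul_left_cancel₀ (inv_ne_zero hl') e)
  · have e : (fun z => (l : ℂ)⁻¹ * φ z) '' {z | 0 < z.im} =
        (fun z => (l : ℂ)⁻¹ * z) '' (φ '' {z | 0 < z.im}) := by rw [image_image]
    rw [e, h.img, interior_scale hl, image_image]
    have e2 : (fun z : ℂ => (l : ℂ)⁻¹ * (l * z)) = id := by
      funext z
      rw [inv_mul_cancel_left₀ hl', id]
    rw [e2, image_id]
  · exact continuousOn_const.mul h.cont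
  · show (l : ℂ)⁻¹ * φ 0 = a
    rw [h.zero, inv_mul_cancel_left₀ hl']
  · have h1 := h.infty.const_mul (l : ℂ)⁻¹
    rwa [inv_mul_cancel_left₀ hl'] at h1

end Vale.Agent.P167.H638.Q.G2
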