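import Vale.Agent.P167.H692.Mk
import Vale.Agent.P167.H72.SD.Lat3
import Vale.Agent.P167.QG.CutR

/-!
# P167, Stage II, [GEO-ASM2] (5): the lattice conditions at one history

`pP`, `kP`, `SP` : the polygon of the shape. `E` is a set of squares of `D'' ∩ P`, `D'' = dk \ Bad`.

* `Up2` : `Bad` is open, the wired side of `P` is pushed out, the free side is pushed in
  (`up2_le`: lower bound of the conditional probability of `LZ`);
* `Lo2` : `Bad` is closed, the free side is pushed out, the wired side is pushed in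
  (`lo2_le`: upper bound).
-/

set_option autoImplicit false

namespace Vale.Agent.P167.H638.Q.G2

open Finset Relation Vale.Agent.P167 Vale.Agent.P167.FK
open Vale.Agent.P145.FB (PStep)
open Vale.Agent.P167.FKA (Cor)
open Vale.Agent.P167.E6 (IsPolygon Encloses edges wiredOpen face dir)
open Vale.Agent.P167.H718 (Dq etaQ)
open Vale.Agent.P167.H161 (Rd)
open Vale.Agent.P167.H397.Q (blk LZ PL)
open Vale.Agent.P167.H192.Q (kill kill_in kill_out)
open Vale.Agent.P167.H72.SD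
open Vale.Agent.P167.H692 (Exit Mark NSf)

variable {n : ℕ} {p : ZMod n → ℤ × ℤ} {S : Finset (ℤ × ℤ)} {k j : ℕ} {A : Finset (Sym2 (ℤ × ℤ))}
  {m : ℕ} {pP : ZMod m → ℤ × ℤ} {SP : Finset (ℤ × ℤ)} {kP : ℕ} {Bad E : Finset (ℤ × ℤ)}

/-- The odd sites of the outer faces. -/
def OutF (S : Finset (ℤ × ℤ)) : Set (ℤ × ℤ) := {t | ∃ f, f ∉ S ∧ t = H192.rf f}

/-- **Lower bound** (`Bad` open). -/
structure Up2 (p : ZMod n → ℤ × ℤ) (k : ℕ) (S : Finset (ℤ × ℤ)) (A : Finset (Sym2 (ℤ × ℤ))) (j : ℕ)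
    (Bad E : Finset (ℤ × ℤ)) (pP : ZMod m → ℤ × ℤ) (kP : ℕ) (SP : Finset (ℤ × ℤ)) : Prop where
  bad : Bad ⊆ dk p k S A j
  badj : ∀ v ∈ Bad, ∀ s, (s.1 + s.2) % 2 = 0 → Cor v s → ∃ w ∈ Wr (dk p k S A j) (om p k A),
    ReflTransGen (PStep {v | v ∈ Bad ∨ (v ∉ dk p k S A j ∧ om p k A v = true)}) w s
  sub : E ⊆ dk p k S A j \ Bad
  subP : E ⊆ Dq SP pP kP
  cl : ∀ x ∈ E, ∀ y ∈ dk p k S A j \ Bad, y ∈ Dq SP pP kP → ∀ s, Cor x s → Cor y s → y ∈ E
  /-- no square which has a site in common with `E` touches the right bank -/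
  t3 : ∀ x ∈ E, ∀ u ∈ dk p k S A j, ∀ s, Cor x s → Cor u s → ∀ o ∈ RB p k A j, ¬ Cor u o
  /-- the unread squares off `P` touch `E` on the wired side of `P` only in wired sites -/
  t4w : ∀ x ∈ E, ∀ y ∈ dk p k S A j \ Bad, y ∉ Dq SP pP kP → etaQ pP kP y = true →
    ∀ s, (s.1 + s.2) % 2 = 0 → Cor x s → Cor y s →
      s ∈ Wr (dk p k S A j) (om p k A) ∨ ∃ v ∈ Bad, Cor v s
  /-- and in odd sites only in outer faces of `P` -/
  t4 : ∀ x ∈ E, ∀ y ∈ dk p k S A j \ Bad, y ∉ Dq SP pP kP → ∀ s, (s.1 + s.2) % 2 = 1 →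
    Cor x s → Cor y s → s ∈ OutF SP
  /-- `E` touches the outside of `Dq` in wired sites -/
  bx : ∀ x ∈ E, ∀ y, y ∉ Dq S p k → ∀ s, (s.1 + s.2) % 2 = 0 → Cor x s → Cor y s →
    s ∈ Wr (dk p k S A j) (om p k A)
  /-- `E` touches the outer faces of the domain only in outer faces of `P` -/
  arc : ∀ x ∈ E, ∀ s ∈ OutF S, Cor x s → s ∈ OutF SP

theorem odd_of {s : ℤ × ℤ} (h : Odd (s.1 + s.2)) : (s.1 + s.2) % 2 = 1 := Int.odd_iff.1 h

/-- The wired sites of `D''`: the even corners of `Bad` are wired if `Bad` is open. -/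
theorem ws_wr {s : ℤ × ℤ} (hb : Bad ⊆ dk p k S A j) (hs : (s.1 + s.2) % 2 = 0)
    (h : s ∈ Wr (dk p k S A j) (om p k A) ∨ ∃ v ∈ Bad, Cor v s) :
    s ∈ Wr (dk p k S A j \ Bad) (kill false Bad (om p k A)) := by
  rcases h with ⟨h1, v, hv, hv', hvs⟩ | ⟨v, hv, hvs⟩
  · have hvB : v ∉ Bad := fun h => hv (hb h)
    exact ⟨h1, v, fun h => hv (mem_sdiff.1 h).1, by rw [kill_out hvB]; exact hv', hvs⟩
  · exact ⟨even_of hs, v, fun h => (mem_sdiff.1 h).2 hv, by rw [kill_in hv]; rfl, hvs⟩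

theorem Up2.joined (h : Up2 p k S A j Bad E pP kP SP) (hp : IsPolygon p) (hk : k < n)
    (hA : A ⊆ edges S) : Joined (dk p k S A j \ Bad) (kill false Bad (om p k A))
      (Wr (dk p k S A j \ Bad) (kill false Bad (om p k A))) := by
  have hsub : {v | v ∈ Bad ∨ (v ∉ dk p k S A j ∧ om p k A v = true)} ⊆
      op (cf (dk p k S A j \ Bad) (kill false Bad (om p k A)) ∅) := by
    rintro v (hv | ⟨h1, h2⟩)
    · have h3 : v ∉ dk p k S A j \ Bad := fun h1 => (mem_sdiff.1 h1).2 hv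
      show cf (dk p k S A j \ Bad) (kill false Bad (om p k A)) ∅ v = true
      unfold cf
      rw [if_neg h3, kill_in hv]
      rfl
    · have h3 : v ∉ Bad := fun h4 => h1 (h.bad h4)
      have h4 : v ∉ dk p k S A j \ Bad := fun h4 => h1 (mem_sdiff.1 h4).1
      show cf (dk p k S A j \ Bad) (kill false Bad (om p k A)) ∅ v = true
      unfold cf
      rw [if_neg h4, kill_out h3]
      exact h2
  have key : ∀ s ∈ Wr (dk p k S A j \ Bad) (kill false Bad (om p k A)),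
      ∃ w ∈ Wr (dk p k S A j) (om p k A),
        PC (cf (dk p k S A j \ Bad) (kill false Bad (om p k A)) ∅) w s := by
    rintro s ⟨hs, v, hvD, hv, hvs⟩
    by_cases hvB : v ∈ Bad
    · obtain ⟨w, hw, h2⟩ := h.badj v hvB s (Int.even_iff.1 hs) hvs
      exact ⟨w, hw, rtg_mono hsub h2⟩
    · rw [kill_out hvB] at hv
      exact ⟨s, ⟨hs, v, fun h1 => hvD (mem_sdiff.2 ⟨h1, hvB⟩), hv, hvs⟩, ReflTransGen.refl⟩
  intro s hs t ht
  obtain ⟨w, hw, h1⟩ := key s hs
  obtain ⟨w', hw', h2⟩ := key t ht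
  have h3 := joined_dk hp hk hA j w hw w' hw'
  have h4 : PC (cf (dk p k S A j \ Bad) (kill false Bad (om p k A)) ∅) w w' := by
    refine rtg_mono (fun v hv => hsub (Or.inr ?_)) h3
    have hv' : cf (dk p k S A j) (om p k A) ∅ v = true := hv
    by_cases h5 : v ∈ dk p k S A j
    · simp [cf, h5] at hv'
    · simp only [cf, h5, if_false] at hv'
      exact ⟨h5, hv'⟩
  exact ((PC_symm h1).trans h4).trans h2

theorem Up2.bank (h : Up2 p k S A j Bad E pP kP SP) (hA : A ⊆ edges S) :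
    Bank E (Dq SP pP kP) (etaQ pP kP)
      (Wr (dk p k S A j \ Bad) (kill false Bad (om p k A))) := by
  intro w a v hw ha haw hvE hv hvw
  have hw0 := Int.even_iff.1 hw
  refine ws_wr h.bad hw0 ?_
  by_cases hvD : v ∈ dk p k S A j \ Bad
  · have hvP : v ∉ Dq SP pP kP := fun h1 => hvE (h.cl a ha v hvD h1 w haw hvw)
    rcases hv with h1 | h1
    · exact absurd h1 hvP
    · exact h.t4w a ha v hvD hvP h1 w hw0 haw hvw
  by_cases hvB : v ∈ Bad
  · exact Or.inr ⟨v, hvB, hvw⟩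
  have hvd : v ∉ dk p k S A j := fun h1 => hvD (mem_sdiff.2 ⟨h1, hvB⟩)
  have had : a ∈ dk p k S A j := (mem_sdiff.1 (h.sub ha)).1
  obtain ⟨u, u', o, hu, hu', hus, hus', huo, huo', ho⟩ :=
    turn (X := (↑(dk p k S A j) : Set (ℤ × ℤ))) (mem_coe.2 had)
      (fun h1 => hvd (mem_coe.1 h1)) haw hvw
  rw [mem_coe] at hu hu'
  by_cases hq : u' ∈ Dq S p k
  · have hR : u' ∈ Rd p k S A j := by
      by_contra h1
      exact hu' (mem_dk.2 ⟨hq, h1⟩)
    cases hc : om p k A u' with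
    | true => exact Or.inl ⟨hw, u', hu', hc, hus'⟩
    | false =>
      exact absurd huo (h.t3 a ha u hu w haw hus o (closed_RB hA hR hc (by omega) huo'))
  · exact Or.inl (h.bx a ha u' hq w hw0 haw hus')

/-- The odd corners of the closed squares off the domain are outer faces. -/
theorem out_of {v t : ℤ × ℤ} (hA : A ⊆ edges S) (hv : v ∉ Dq S p k)
    (h1 : om p k A v = false) (ht : Odd (t.1 + t.2)) (hvt : Cor v t) : t ∈ OutF S := by
  have h2 : etaQ p k v = false := by rw [H692.etaQ_om hA hv]; exact h1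
  exact H692.face_of hv h2 ht hvt

theorem Up2.exit (h : Up2 p k S A j Bad E pP kP SP) (hA : A ⊆ edges S)
    (hpP : IsPolygon pP) (hSP : Encloses pP SP) :
    Exit E (dk p k S A j \ Bad) (kill false Bad (om p k A)) (Dq SP pP kP) (etaQ pP kP) := by
  refine H692.exit_poly hpP hSP fun t a v ht ha hat hvE hv hvt => ?_
  have ht0 := odd_of ht
  by_cases hvD : v ∈ dk p k S A j \ Bad
  · have hvP : v ∉ Dq SP pP kP := fun h1 => hvE (h.cl a ha v hvD h1 t hat hvt)
    exact h.t4 a ha v hvD hvP t ht0 hat hvt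
  · have hvc : kill false Bad (om p k A) v = false := by
      rcases hv with h1 | h1
      · exact absurd h1 hvD
      · exact h1
    have hvB : v ∉ Bad := by
      intro h1
      rw [kill_in h1] at hvc
      exact Bool.noConfusion hvc
    rw [kill_out hvB] at hvc
    have hvd : v ∉ dk p k S A j := fun h1 => hvD (mem_sdiff.2 ⟨h1, hvB⟩)
    by_cases hq : v ∈ Dq S p k
    · have hR : v ∈ Rd p k S A j := by
        by_contra h1
        exact hvd (mem_dk.2 ⟨hq, h1⟩)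
      have had : a ∈ dk p k S A j := (mem_sdiff.1 (h.sub ha)).1
      exact absurd hat (h.t3 a ha a had t hat hat t (closed_RB hA hR hvc ht0 hvt))
    · exact h.arc a ha t (out_of hA hq hvc ht hvt) hat

/-- **Upper bound** (`Bad` closed). Outer faces are not in the domain: two squares of `dk` which have
only an outer face in common may be in different parts of the domain. -/
structure Lo2 (p : ZMod n → ℤ × ℤ) (k : ℕ) (S : Finset (ℤ × ℤ)) (A : Finset (Sym2 (ℤ × ℤ))) (j : ℕ)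
    (Bad E : Finset (ℤ × ℤ)) (pP : ZMod m → ℤ × ℤ) (kP : ℕ) (SP : Finset (ℤ × ℤ)) : Prop where
  bad : Bad ⊆ dk p k S A j
  badj : ∀ v ∈ Bad, ∀ s, (s.1 + s.2) % 2 = 1 → Cor v s →
    ∃ t, (t ∈ Fr p k S A j ∨ t ∈ OutF S) ∧
      ReflTransGen (PStep {v | v ∈ Bad ∨ v ∈ Kc p k S A j}) s t
  sub : E ⊆ dk p k S A j \ Bad
  subP : E ⊆ Dq SP pP kP
  cl : ∀ x ∈ E, ∀ y ∈ dk p k S A j \ Bad, y ∈ Dq SP pP kP → ∀ s,
    ((s.1 + s.2) % 2 = 0 ∨ H192.rf' s ∈ S) → Cor x s → Cor y s → y ∈ E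
  /-- no square which has a site in common with `E` touches the left bank -/
  t3 : ∀ x ∈ E, ∀ u ∈ dk p k S A j, ∀ s, ((s.1 + s.2) % 2 = 0 ∨ H192.rf' s ∈ S) → Cor x s →
    Cor u s → ∀ o ∈ LB p k A j, ¬ Cor u o
  /-- the unread squares off `P` touch `E` in even sites only on the wired side of `P` -/
  t4 : ∀ x ∈ E, ∀ y ∈ dk p k S A j \ Bad, y ∉ Dq SP pP kP → ∀ s, (s.1 + s.2) % 2 = 0 →
    Cor x s → Cor y s → s ∈ Wr (Dq SP pP kP) (etaQ pP kP)
  /-- and in odd sites not in outer faces of `P` -/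
  t4o : ∀ x ∈ E, ∀ y ∈ dk p k S A j \ Bad, y ∉ Dq SP pP kP → ∀ s, (s.1 + s.2) % 2 = 1 →
    H192.rf' s ∈ S → Cor x s → Cor y s → s ∉ OutF SP
  /-- `E` does not touch the wired arc -/
  bxe : ∀ x ∈ E, ∀ y, y ∉ Dq S p k → om p k A y = true → ∀ s, (s.1 + s.2) % 2 = 0 → Cor x s →
    ¬ Cor y s
  /-- no square which has a site of the domain in common with `E` touches the wired arc -/
  bxi : ∀ x ∈ E, ∀ s, (s.1 + s.2) % 2 = 1 → H192.rf' s ∈ S → Cor x s → ∀ u ∈ dk p k S A j,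
    Cor u s → ∀ y, y ∉ Dq S p k → om p k A y = true → ∀ o, (o.1 + o.2) % 2 = 0 → Cor u o →
    ¬ Cor y o

/-- Outer faces. -/
theorem mem_outF {s : ℤ × ℤ} (hs : (s.1 + s.2) % 2 = 1) (h : H192.rf' s ∉ S) : s ∈ OutF S :=
  ⟨H192.rf' s, h, (H192.rf_rf' (Int.not_even_iff.2 hs)).symm⟩

/-- Odd contact sites with squares off `D''` are joined to outer faces. -/
theorem Lo2.odd (h : Lo2 p k S A j Bad E pP kP SP) (hA : A ⊆ edges S) {x y s : ℤ × ℤ}
    (hx : x ∈ E) (hs : (s.1 + s.2) % 2 = 1) (hsS : H192.rf' s ∈ S) (hxs : Cor x s)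
    (hys : Cor y s) (hy : y ∉ dk p k S A j \ Bad) :
    ∃ t, (t ∈ Fr p k S A j ∨ t ∈ OutF S) ∧
      ReflTransGen (PStep {v | v ∈ Bad ∨ v ∈ Kc p k S A j}) s t := by
  by_cases hyB : y ∈ Bad
  · exact h.badj y hyB s hs hys
  have hyd : y ∉ dk p k S A j := fun h1 => hy (mem_sdiff.2 ⟨h1, hyB⟩)
  have hxd : x ∈ dk p k S A j := (mem_sdiff.1 (h.sub hx)).1
  obtain ⟨u, u', o, hu, hu', hus, hus', huo, huo', ho⟩ :=
    turn (X := (↑(dk p k S A j) : Set (ℤ × ℤ))) (mem_coe.2 hxd)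
      (fun h1 => hyd (mem_coe.1 h1)) hxs hys
  rw [mem_coe] at hu hu'
  by_cases hq : u' ∈ Dq S p k
  · have hR : u' ∈ Rd p k S A j := by
      by_contra h1
      exact hu' (mem_dk.2 ⟨hq, h1⟩)
    cases hc : om p k A u' with
    | false => exact ⟨s, Or.inl ⟨hs, u', hR, hc, hus'⟩, ReflTransGen.refl⟩
    | true =>
      exact absurd huo (h.t3 x hx u hu s (Or.inr hsS) hxs hus o (open_LB hA hR hc (by omega) huo'))
  · cases hc : om p k A u' with
    | true => exact absurd huo' (h.bxi x hx s hs hsS hxs u hu hus u' hq hc o (by omega) huo)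
    | false =>
      exact ⟨s, Or.inr (out_of hA hq hc (Int.odd_iff.2 hs) hus'), ReflTransGen.refl⟩

theorem Lo2.bank (h : Lo2 p k S A j Bad E pP kP SP) (hA : A ⊆ edges S) :
    Bank E (dk p k S A j \ Bad) (kill true Bad (om p k A)) (Wr (Dq SP pP kP) (etaQ pP kP)) := by
  intro w a v hw ha haw hvE hv hvw
  have hw0 := Int.even_iff.1 hw
  by_cases hvD : v ∈ dk p k S A j \ Bad
  · have hvP : v ∉ Dq SP pP kP := fun h1 => hvE (h.cl a ha v hvD h1 w (Or.inl hw0) haw hvw)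
    exact h.t4 a ha v hvD hvP w hw0 haw hvw
  · have ho : kill true Bad (om p k A) v = true := by
      rcases hv with h1 | h1
      · exact absurd h1 hvD
      · exact h1
    have hvB : v ∉ Bad := by
      intro h1
      rw [kill_in h1] at ho
      exact Bool.noConfusion ho
    rw [kill_out hvB] at ho
    have hvd : v ∉ dk p k S A j := fun h1 => hvD (mem_sdiff.2 ⟨h1, hvB⟩)
    have had : a ∈ dk p k S A j := (mem_sdiff.1 (h.sub ha)).1
    by_cases hq : v ∈ Dq S p k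
    · have hR : v ∈ Rd p k S A j := by
        by_contra h1
        exact hvd (mem_dk.2 ⟨hq, h1⟩)
      exact absurd haw (h.t3 a ha a had w (Or.inl hw0) haw haw w (open_LB hA hR ho hw0 hvw))
    · exact absurd hvw (h.bxe a ha v hq ho w hw0 haw)

theorem Lo2.exit (h : Lo2 p k S A j Bad E pP kP SP) (hA : A ⊆ edges S) (hp : IsPolygon p)
    (hS : Encloses p S) :
    Exit E (Dq SP pP kP) (etaQ pP kP) (dk p k S A j \ Bad) (kill true Bad (om p k A)) := by
  refine H692.exit_dk hp hS hA h.bad fun t a v ht ha hat hvE hv hvt => ?_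
  have ht0 := odd_of ht
  by_cases htS : H192.rf' t ∈ S
  · by_cases hvD : v ∈ dk p k S A j \ Bad
    · exfalso
      have hvP : v ∉ Dq SP pP kP := fun h1 => hvE (h.cl a ha v hvD h1 t (Or.inr htS) hat hvt)
      have hvc : etaQ pP kP v = false := by
        rcases hv with h1 | h1
        · exact absurd h1 hvP
        · exact h1
      exact h.t4o a ha v hvD hvP t ht0 htS hat hvt (H692.face_of hvP hvc ht hvt)
    · exact h.odd hA ha ht0 htS hat hvt hvD
  · exact ⟨t, Or.inr (mem_outF ht0 htS), ReflTransGen.refl⟩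

/-! ### The comparison at one history -/

/-- **Lower bound of the conditional probability of `LZ`.** -/
theorem up2_le {Q : ℝ} (hQ : 1 ≤ Q) (h : Up2 p k S A j Bad E pP kP SP) (hp : IsPolygon p)
    (hS : Encloses p S) (hk : k + 1 < n) (hA : A ⊆ edges S) (hpP : IsPolygon pP)
    (hSP : Encloses pP SP) (hkP : kP + 1 < m) {s : ℤ × ℤ} (hs : Odd (s.1 + s.2))
    (hsE : ∀ v, Cor v s → v ∈ E) :
    Ex Q (Dq SP pP kP) (etaQ pP kP) ((LZ (H192.ro (pP (-1))) s).indicator 1) ≤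
      Ex Q (dk p k S A j) (om p k A) ((LZ (H192.ro (p (-1))) s).indicator 1) +
        Ex Q (dk p k S A j) (om p k A) ((NSf (dk p k S A j) (om p k A) Bad).indicator 1) :=
  H692.lz_lower hQ (QG.good_wired hA) H718.good_etaQ h.bad
    (H692.mark_dk hp hS hA hk j) h.sub h.subP (h.joined hp (by omega) hA) (h.bank hA)
    (h.exit hA hpP hSP) (H692.wr_mem hpP hSP hkP) hs hsE

/-- **Upper bound of the conditional probability of `LZ`.** -/
theorem lo2_le {Q : ℝ} (hQ : 1 ≤ Q) (h : Lo2 p k S A j Bad E pP kP SP) (hp : IsPolygon p)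
    (hS : Encloses p S) (hk : k + 1 < n) (hA : A ⊆ edges S) (hpP : IsPolygon pP)
    (hSP : Encloses pP SP) (hkP : kP + 1 < m) {s : ℤ × ℤ} (hs : Odd (s.1 + s.2))
    (hsE : ∀ v, Cor v s → v ∈ E) :
    Ex Q (dk p k S A j) (om p k A) ((LZ (H192.ro (p (-1))) s).indicator 1) ≤
      Ex Q (Dq SP pP kP) (etaQ pP kP) ((LZ (H192.ro (pP (-1))) s).indicator 1) +
        Ex Q (dk p k S A j) (om p k A) ((NSlo (dk p k S A j) (om p k A) Bad ∅).indicator 1) :=
  H692.lz_upper hQ (QG.good_wired hA) H718.good_etaQ h.bad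
    (H692.mark_dk hp hS hA hk j) h.sub h.subP (H692.joined_dq hpP) (h.bank hA)
    (h.exit hA hp hS) (H692.wr_mem hpP hSP hkP) hs hsE

end Vale.Agent.P167.H638.Q.G2
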