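import Vale.Agent.P167.H638.G2.Asm
import Vale.Agent.P167.H692.UpLo
import Vale.Agent.P167.QG.CutR
import Vale.Agent.P167.H713.Q.Bad

/-!
# P167, Stage II, [GEO-ASM2] (6): the literal inputs and the final theorem

* `Shp2 Re c G` ([SHP2 c], 991 / 450 / 713 / 756): the shapes;
* `Bad2 q c G` ([BAD2 c], 174 / 476 / 531): the bad histories;
* `geoL_of`: 212's `GeoL` from these.

`G` is a condition on the history (it may be `True`).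
-/

set_option autoImplicit false
set_option linter.unusedVariables false

open MeasureTheory ProbabilityTheory Filter Topology Set Metric

namespace Vale.Agent.P167.H638.Q.G2

open Vale.Agent.P167.H192 (cfg ro rf odd_rf)
open Vale.Agent.P153.R2
open Vale.Agent.P167.E6
open Vale.Agent.P167.H411 (Set6 exn good_ev)
open Vale.Agent.P167.H756
open Vale.Agent.P167.H212 (pz)
open Vale.Agent.P167.H212.L (Sh2 ZDom GeoL GeoLAt)
open Vale.Agent.P167.H397.Q (LZ)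
open Vale.Agent.P167.FK
open Vale.Agent.P167.FKA (Cor)
open Vale.Agent.P167.H72.SD (dk om NSlo)
open Vale.Agent.P167.H692 (NSf)

/-- Conditions on a history: colour, polygon, `k`, `S`, edges, step, mesh, `r`, `s`. -/
abbrev Cond := Bool → ∀ n : ℕ, (ZMod n → ℤ × ℤ) → ℕ → Finset (ℤ × ℤ) → Finset (Sym2 (ℤ × ℤ)) → ℕ →
  ℝ → ℝ → ℝ → Prop

/-- The inner radius (in squares) of the conflict boxes. -/
noncomputable def rho (s δ : ℝ) : ℕ := 8 * ⌈100 * s / δ⌉₊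

/-- The outer radius (in squares) of the conflict boxes. -/
noncomputable def RR (r δ : ℝ) : ℕ := ⌊r / δ⌋₊

/-- The frozen squares (713). -/
noncomputable abbrev BadS {n : ℕ} (p : ZMod n → ℤ × ℤ) (k : ℕ) (S : Finset (ℤ × ℤ))
    (A : Finset (Sym2 (ℤ × ℤ))) (j : ℕ) (δ : ℝ) (c : Bool) (r s : ℝ) : Finset (ℤ × ℤ) :=
  H713.Q.Bad p k S A j δ c (rho s δ) (RR r δ)

/-- The event that the cluster of `Bad` of the opposite colour touches its own boundary. -/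
noncomputable def NS (c : Bool) (D : Finset (ℤ × ℤ)) (η : Cfg) (Bad : Finset (ℤ × ℤ)) : Set Cfg :=
  if c = true then NSf D η Bad else NSlo D η Bad ∅

/-- The shape at one history. -/
def ShpAt (Re : Sh2 → ℕ → ℤ × ℤ → ZDom → Prop) (c : Bool) (h Y Rb δ : ℝ) (ψ : ℂ → ℂ)
    (W : ℝ → ℝ) (t : ℝ) (N : ℕ) (f : ℤ × ℤ) {n : ℕ} (p : ZMod n → ℤ × ℤ) (k : ℕ)
    (S : Finset (ℤ × ℤ)) (A : Finset (Sym2 (ℤ × ℤ))) (j : ℕ) (Bad : Finset (ℤ × ℤ)) : Prop :=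
  ∃ P : Sh2, Ok0 P ∧
    (∃ Q : Set ℂ, PO h (rcd δ (rf f) ψ) W t Y Rb Q (interior (region (δ / √2 * N) P.S))
      (((δ / √2 * N : ℝ) : ℂ) * P.a) (((δ / √2 * N : ℝ) : ℂ) * P.b)) ∧
    ∀ D : ZDom, Re P N (rf f) D → ∃ E : Finset (ℤ × ℤ), (∀ v, Cor v (rf f) → v ∈ E) ∧
      (c = true → H692.Up2 p k S A j Bad E (H718.Dq D.S D.p D.k) (H718.etaQ D.p D.k)) ∧
      (c = false → H692.Lo2 p k S A j Bad E (H718.Dq D.S D.p D.k) (H718.etaQ D.p D.k))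

/-- **[SHP2 c]** The shapes. -/
def Shp2 (Re : Sh2 → ℕ → ℤ × ℤ → ZDom → Prop) (c : Bool) (G : Cond) : Prop :=
  ∀ (Φ : (ℝ × ℝ) ≃ₜ (ℝ × ℝ)) (ψ : ℂ → ℂ)
  (δ : ℕ → ℝ) (N k : ℕ → ℕ) (p : ∀ n, ZMod (N n) → ℤ × ℤ) (S : ℕ → Finset (ℤ × ℤ))
  (ψn : ℕ → ℂ → ℂ), Set6 Φ ψ δ N k p S ψn → ∀ T R : ℝ, 0 ≤ T → 0 < R →
    ∃ b₁ : ℝ, ∀ b : ℝ, b₁ ≤ b → ∀ θ ∈ Ioo 0 Real.pi, ∀ Y : ℝ, 0 < Y → 8 * (R + 1) ≤ Y →
      64 * (T + 1) ≤ Y ^ 2 → ∃ Rb : ℝ, 0 ≤ Rb ∧ ∀ h : ℝ, 0 < h → ∃ r₀ : ℝ, 0 < r₀ ∧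
      ∀ r : ℝ, 0 < r → r ≤ r₀ → ∃ s₀ : ℝ, 0 < s₀ ∧ ∀ s : ℝ, 0 < s → s ≤ s₀ →
      ∀ᶠ n in atTop, ∀ f : ℤ × ℤ, dist (ctr (δ n) f) (ψn n (pz b θ)) ≤ δ n →
        ∀ A ∈ (exn δ N k p S ψn n).C, ∀ j < (exn δ N k p S ψn n).K A,
        (∀ i < j, (exn δ N k p S ψn n).c A i ≤ T ∧ |(exn δ N k p S ψn n).V A i| ≤ R) →
        G c (N n) (p n) (k n) (S n) A j (δ n) r s →
        ShpAt Re c h Y Rb (δ n) (ψn n) ((exn δ N k p S ψn n).W A) ((exn δ N k p S ψn n).c A j)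
          (NN s (δ n)) f (p n) (k n) (S n) A j (BadS (p n) (k n) (S n) A j (δ n) c r s)

/-- **[BAD2 c]** The bad histories. -/
def Bad2 (q : ℝ) (c : Bool) (G : Cond) : Prop :=
  ∀ (Φ : (ℝ × ℝ) ≃ₜ (ℝ × ℝ)) (ψ : ℂ → ℂ)
  (δ : ℕ → ℝ) (N k : ℕ → ℕ) (p : ∀ n, ZMod (N n) → ℤ × ℤ) (S : ℕ → Finset (ℤ × ℤ))
  (ψn : ℕ → ℂ → ℂ), Set6 Φ ψ δ N k p S ψn → ∀ T R : ℝ, 0 ≤ T → 0 < R →
    ∃ r₀ : ℝ, 0 < r₀ ∧ ∀ r : ℝ, 0 < r → r ≤ r₀ → ∀ ε : ℝ, 0 < ε →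
      ∃ s₀ : ℝ, 0 < s₀ ∧ ∀ s : ℝ, 0 < s → s ≤ s₀ → ∀ᶠ n in atTop,
        ∀ κ : Finset (Sym2 (ℤ × ℤ)) → ℕ, QE.BefIx (exn δ N k p S ψn n) T R κ →
        QE.ExW (exn δ N k p S ψn n).C (QE.wq q (N n) (p n) (k n) (S n))
          ({A | ¬ (G c (N n) (p n) (k n) (S n) A (κ A) (δ n) r s ∧
            Ex (√q) (dk (p n) (k n) (S n) A (κ A)) (om (p n) (k n) A)
              ((NS c (dk (p n) (k n) (S n) A (κ A)) (om (p n) (k n) A)
                (BadS (p n) (k n) (S n) A (κ A) (δ n) c r s)).indicator 1) ≤ ε)}.indicator 1) ≤ ε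

/-- What is used of the realizations. -/
structure ReOk (Re : Sh2 → ℕ → ℤ × ℤ → ZDom → Prop) : Prop where
  ex : ∀ P : Sh2, P.Ok → ∃ N₀ : ℕ, ∀ N, N₀ ≤ N → 4 ∣ N → ∀ s : ℤ × ℤ, Odd (s.1 + s.2) →
    ∃ D, Re P N s D
  poly : ∀ P N s D, Re P N s D → IsPolygon D.p
  encl : ∀ P N s D, Re P N s D → Encloses D.p D.S
  k_lt : ∀ P N s D, Re P N s D → D.k + 1 < D.n
  face : ∀ P N s D, Re P N s D → rf D.f = s

/-- One side of the comparison. -/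
theorem side_of {Re : Sh2 → ℕ → ℤ × ℤ → ZDom → Prop} (hRe : ReOk Re) {q : ℝ} (hq : 1 ≤ q)
    {c : Bool} {G : Cond} (hS : Shp2 Re c G) (hB : Bad2 q c G) : Side Re q c := by
  intro Φ ψ δ N k p S ψn H6 T R hT hR
  obtain ⟨b₁, hb₁⟩ := hS Φ ψ δ N k p S ψn H6 T R hT hR
  refine ⟨b₁, fun b hb θ hθ Y hY0 hY1 hY2 => ?_⟩
  obtain ⟨Rb, hRb, hs₁⟩ := hb₁ b hb θ hθ Y hY0 hY1 hY2
  refine ⟨Rb, hRb, fun h hh ε hε => ?_⟩
  obtain ⟨r₁, hr₁, hs₁⟩ := hs₁ h hh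
  obtain ⟨r₂, hr₂, hs₂⟩ := hB Φ ψ δ N k p S ψn H6 T R hT hR
  obtain ⟨s₁, hs₁0, hs₁⟩ := hs₁ (min r₁ r₂) (by positivity) (min_le_left _ _)
  obtain ⟨s₂, hs₂0, hs₂⟩ := hs₂ (min r₁ r₂) (by positivity) (min_le_right _ _) ε hε
  refine ⟨min s₁ s₂, by positivity, fun s hs hss => ?_⟩
  have hq0 : 0 < q := by linarith
  have hqs : 1 ≤ √q := Real.one_le_sqrt.2 hq
  filter_upwards [hs₁ s hs (hss.trans (min_le_left _ _)), hs₂ s hs (hss.trans (min_le_right _ _)),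
    good_ev H6.appr] with n n1 n2 n3 f hf κ hκ
  have hU := H6.uni n n3
  have hwf := Vale.Agent.P167.H411.DC.expl_wf (wf_of H6 n3) hU
  have hfinC : (exn δ N k p S ψn n).C.Finite := hwf.fin
  obtain ⟨g1, g2, g3, g4, g5⟩ := H6.appr.1 n
  refine (QE.exW_mono hfinC (fun a _ => QE.wq_pos hq0 _ _ _ _ a) fun A hA => ?_).trans (n2 κ hκ)
  have key : ∀ A' ∈ (exn δ N k p S ψn n).C, ¬ SideAt Re q c h ε Y Rb (δ n) (ψn n)
      ((exn δ N k p S ψn n).W A') ((exn δ N k p S ψn n).c A' (κ A')) (NN s (δ n)) f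
      (QE.cexW (exn δ N k p S ψn n) (QE.wq q (N n) (p n) (k n) (S n))
        (fun A' => (LZ (ro (p n (-1))) (rf f)).indicator 1
          (cfg (Final.wiredOpen (p n) (k n) A'))) A' (κ A')) →
      ¬ (G c (N n) (p n) (k n) (S n) A' (κ A') (δ n) (min r₁ r₂) s ∧
        Ex (√q) (dk (p n) (k n) (S n) A' (κ A')) (om (p n) (k n) A')
          ((NS c (dk (p n) (k n) (S n) A' (κ A')) (om (p n) (k n) A')
            (BadS (p n) (k n) (S n) A' (κ A') (δ n) c (min r₁ r₂) s)).indicator 1) ≤ ε) := by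
    intro A' h2 h1 h3
    apply h1
    obtain ⟨k1, k2⟩ := hκ.2 A' h2
    obtain ⟨P, hP, hPO, hD⟩ := n1 f hf A' h2 (κ A') k1 k2 h3.1
    refine ⟨P, hP, hPO, fun D hRD => ?_⟩
    obtain ⟨E, hE1, hE2, hE3⟩ := hD D hRD
    have hA' : A' ⊆ edges (S n) :=
      (Vale.Agent.P167.H411.mem_Qc (p := p n) (k := k n) (δ := δ n)).1 h2
    have hodd : Odd ((rf f).1 + (rf f).2) := Int.not_even_iff_odd.1 (odd_rf f)
    have e1 := QG.cexW_exn hq0 δ N k p S ψn n g4 g5 ((LZ (ro (p n (-1))) (rf f)).indicator 1)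
      hA' (κ A')
    have e2 : D.pr q = Ex (√q) (H718.Dq D.S D.p D.k) (H718.etaQ D.p D.k)
        ((LZ (ro (D.p (-1))) (rf f)).indicator 1) := by
      rw [← hRe.face P _ _ D hRD]
      exact H692.PL_eq hq0 (hRe.poly P _ _ D hRD) (hRe.encl P _ _ D hRD) D.f
    rcases Bool.eq_false_or_eq_true c with hc | hc
    · subst hc
      rw [if_pos rfl]
      have h4 := (hE2 rfl).le hqs g4 g5 n3 hA' (hRe.poly P _ _ D hRD) (hRe.encl P _ _ D hRD)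
        (hRe.k_lt P _ _ D hRD) hodd hE1
      have h5 := h3.2
      rw [NS, if_pos rfl] at h5
      rw [e2]
      refine (sub_le_iff_le_add.2 (h4.trans (add_le_add ?_ h5)))
      exact e1.ge
    · subst hc
      rw [if_neg (by decide)]
      have h4 := (hE3 rfl).le hqs g4 g5 n3 hA' (hRe.poly P _ _ D hRD) (hRe.encl P _ _ D hRD)
        (hRe.k_lt P _ _ D hRD) hodd hE1
      have h5 := h3.2
      rw [NS, if_neg (by decide)] at h5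
      rw [e2]
      refine le_trans ?_ (h4.trans (add_le_add le_rfl h5))
      exact e1.le
  by_cases h1 : SideAt Re q c h ε Y Rb (δ n) (ψn n)
      ((exn δ N k p S ψn n).W A) ((exn δ N k p S ψn n).c A (κ A)) (NN s (δ n)) f
      (QE.cexW (exn δ N k p S ψn n) (QE.wq q (N n) (p n) (k n) (S n))
        (fun A' => (LZ (ro (p n (-1))) (rf f)).indicator 1
          (cfg (Final.wiredOpen (p n) (k n) A'))) A (κ A))
  · rw [Set.indicator_of_notMem (by rw [mem_ofPred_eq, not_not]; exact h1)]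
    exact Set.indicator_nonneg (fun _ _ => zero_le_one) _
  · rw [Set.indicator_of_mem (by rw [mem_ofPred_eq]; exact h1),
      Set.indicator_of_mem (by rw [mem_ofPred_eq]; exact key A hA h1)]

/-- **[GEO-ASM2]** -/
theorem geoL_of {Re : Sh2 → ℕ → ℤ × ℤ → ZDom → Prop} (hRe : ReOk Re) {q : ℝ} (hq : 1 ≤ q)
    {G : Cond} (hS : ∀ c, Shp2 Re c G) (hB : ∀ c, Bad2 q c G) : GeoL Re q :=
  geoL_of_side (by linarith) hRe.ex (side_of hRe hq (hS true) (hB true))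
    (side_of hRe hq (hS false) (hB false))

end Vale.Agent.P167.H638.Q.G2
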