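import Vale.Agent.P167.H638.G2.Side

/-!
# P167, Stage II, [GEO-ASM2] (3): the conformal part at one history
-/

set_option autoImplicit false
set_option linter.unusedVariables false

open MeasureTheory ProbabilityTheory Filter Topology Set Metric

namespace Vale.Agent.P167.H638.Q.G2

open Vale.Agent.P167.H192 (cfg ro rf)
open Vale.Agent.P153.R2
open Vale.Agent.P153.R2.R1 (IsU)
open Vale.Agent.P153.R2.L1 (HH)
open Vale.Agent.P164 (loewnerDomain Zf)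
open Vale.Agent.P167.E6
open Vale.Agent.P167.H411 (Set6 exn good_ev)
open Vale.Agent.P167.H756
open Vale.Agent.P167.H947 (flow flow_gf)
open Vale.Agent.P167.H212 (pz norm_pz im_pz)
open Vale.Agent.P167.H212.L (Sh2 ZDom GeoL GeoLAt)
open Vale.Agent.P167.H397.Q (LZ)

/-- The centre of a face of the polygon. -/
theorem center_mem {l : ℝ} (hl : 0 < l) {S : Finset (ℤ × ℤ)} {v : ℤ × ℤ}
    (h : (l : ℂ) * (pt v + (1 + Complex.I) / 2) ∈ region l S) : v ∈ S := by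
  obtain ⟨f, hf, h1, h2, h3, h4⟩ := h
  rw [Complex.re_ofReal_mul] at h1 h2
  rw [Complex.im_ofReal_mul] at h3 h4
  have e1 : (pt v + (1 + Complex.I) / 2).re = v.1 + 1 / 2 := by simp [pt]
  have e2 : (pt v + (1 + Complex.I) / 2).im = v.2 + 1 / 2 := by simp [pt]
  rw [e1] at h1 h2
  rw [e2] at h3 h4
  have a1 := le_of_mul_le_mul_left h1 hl
  have a2 := le_of_mul_le_mul_left h2 hl
  have a3 := le_of_mul_le_mul_left h3 hl
  have a4 := le_of_mul_le_mul_left h4 hl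
  have b1 : f.1 ≤ v.1 := by
    have : (f.1 : ℝ) < v.1 + 1 := by linarith
    have : f.1 < v.1 + 1 := by exact_mod_cast this
    omega
  have b2 : v.1 ≤ f.1 := by
    have : (v.1 : ℝ) < f.1 + 1 := by linarith
    have : v.1 < f.1 + 1 := by exact_mod_cast this
    omega
  have b3 : f.2 ≤ v.2 := by
    have : (f.2 : ℝ) < v.2 + 1 := by linarith
    have : f.2 < v.2 + 1 := by exact_mod_cast this
    omega
  have b4 : v.2 ≤ f.2 := by
    have : (v.2 : ℝ) < f.2 + 1 := by linarith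
    have : v.2 < f.2 + 1 := by exact_mod_cast this
    omega
  have e : f = v := Prod.ext (le_antisymm b1 b2) (le_antisymm b3 b4)
  rwa [← e]

theorem center_int {l : ℝ} (hl : 0 < l) {S : Finset (ℤ × ℤ)} {v : ℤ × ℤ} (h : v ∈ S) :
    (l : ℂ) * (pt v + (1 + Complex.I) / 2) ∈ interior (region l S) := by
  rw [mem_interior]
  refine ⟨{z : ℂ | l * v.1 < z.re} ∩ {z : ℂ | z.re < l * (v.1 + 1)} ∩
    ({z : ℂ | l * v.2 < z.im} ∩ {z : ℂ | z.im < l * (v.2 + 1)}), ?_, ?_, ?_⟩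
  · rintro z ⟨⟨h1, h2⟩, h3, h4⟩
    exact ⟨v, h, le_of_lt h1, le_of_lt h2, le_of_lt h3, le_of_lt h4⟩
  · exact ((isOpen_lt continuous_const Complex.continuous_re).inter
      (isOpen_lt Complex.continuous_re continuous_const)).inter
      ((isOpen_lt continuous_const Complex.continuous_im).inter
      (isOpen_lt Complex.continuous_im continuous_const))
  · have e1 : (pt v + (1 + Complex.I) / 2).re = v.1 + 1 / 2 := by simp [pt]
    have e2 : (pt v + (1 + Complex.I) / 2).im = v.2 + 1 / 2 := by simp [pt]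
    refine ⟨⟨?_, ?_⟩, ?_, ?_⟩ <;>
      simp only [mem_ofPred_eq, Complex.re_ofReal_mul, Complex.im_ofReal_mul, e1, e2] <;>
      exact mul_lt_mul_of_pos_left (by linarith) hl

theorem norm_center {l : ℝ} (hl : 0 < l) {v : ℤ × ℤ} (h1 : -1 ≤ v.1) (h2 : v.1 ≤ 0)
    (h3 : -1 ≤ v.2) (h4 : v.2 ≤ 0) : ‖(l : ℂ) * (pt v + (1 + Complex.I) / 2)‖ ≤ l := by
  have e1 : (pt v + (1 + Complex.I) / 2).re = v.1 + 1 / 2 := by simp [pt]
  have e2 : (pt v + (1 + Complex.I) / 2).im = v.2 + 1 / 2 := by simp [pt]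
  rw [norm_mul, Complex.norm_real, Real.norm_of_nonneg hl.le]
  have h5 : ‖pt v + (1 + Complex.I) / 2‖ ≤ 1 := by
    refine (Complex.norm_le_abs_re_add_abs_im _).trans ?_
    rw [e1, e2]
    have a1 : (-1 : ℝ) ≤ v.1 := by exact_mod_cast h1
    have a2 : (v.1 : ℝ) ≤ 0 := by exact_mod_cast h2
    have a3 : (-1 : ℝ) ≤ v.2 := by exact_mod_cast h3
    have a4 : (v.2 : ℝ) ≤ 0 := by exact_mod_cast h4
    have b1 : |(v.1 : ℝ) + 1 / 2| ≤ 1 / 2 := abs_le.2 ⟨by linarith, by linarith⟩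
    have b2 : |(v.2 : ℝ) + 1 / 2| ≤ 1 / 2 := abs_le.2 ⟨by linarith, by linarith⟩
    linarith
  nlinarith

/-- The number of squares per unit. -/
theorem NN_bd {s δ : ℝ} (hs : 0 < s) (hδ : 0 < δ) :
    δ / √2 * NN s δ ≤ s ∧ s - 4 * (δ / √2) ≤ δ / √2 * NN s δ := by
  have hd : 0 < δ / √2 := by positivity
  have h1 : 0 < 4 * (δ / √2) := by positivity
  have h2 := Nat.floor_le (a := s / (4 * (δ / √2))) (by positivity)
  have h3 := Nat.lt_floor_add_one (s / (4 * (δ / √2)))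
  rw [le_div_iff₀ h1] at h2
  rw [div_lt_iff₀ h1] at h3
  rw [NN]
  push_cast
  constructor
  · linarith
  · nlinarith

theorem NN_tend {s : ℝ} (hs : 0 < s) {δ : ℕ → ℝ} (hδ0 : ∀ n, 0 < δ n)
    (hδ : Tendsto δ atTop (𝓝 0)) : Tendsto (fun n => NN s (δ n)) atTop atTop := by
  have h1 : Tendsto (fun n => s / (4 * (δ n / √2))) atTop atTop := by
    have h2 : Tendsto (fun n => 4 * (δ n / √2)) atTop (𝓝[>] 0) := by
      rw [tendsto_nhdsWithin_iff]
      refine ⟨?_, Eventually.of_forall fun n => ?_⟩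
      · have := (hδ.div_const √2).const_mul 4
        simpa using this
      · have := hδ0 n
        show 0 < 4 * (δ n / √2)
        positivity
    exact (tendsto_inv_nhdsGT_zero.comp h2).const_mul_atTop hs
  have h2 := (tendsto_nat_floor_atTop (α := ℝ)).comp h1
  refine tendsto_atTop_mono (fun n => ?_) h2
  simp only [NN, Function.comp]
  omega

theorem exists_face {δ : ℝ} (hδ : 0 < δ) (z : ℂ) : ∃ f : ℤ × ℤ, dist (ctr δ f) z ≤ δ := by
  refine ⟨(⌊z.re / δ⌋, ⌊z.im / δ⌋), ?_⟩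
  rw [dist_eq_norm]
  have h1 := Int.floor_le (z.re / δ)
  have h2 := Int.lt_floor_add_one (z.re / δ)
  have h3 := Int.floor_le (z.im / δ)
  have h4 := Int.lt_floor_add_one (z.im / δ)
  rw [le_div_iff₀ hδ] at h1 h3
  rw [div_lt_iff₀ hδ] at h2 h4
  refine (Complex.norm_le_abs_re_add_abs_im _).trans ?_
  have e1 : (ctr δ (⌊z.re / δ⌋, ⌊z.im / δ⌋) - z).re = δ * (⌊z.re / δ⌋ + 1 / 2) - z.re := by
    simp [ctr, pt]
  have e2 : (ctr δ (⌊z.re / δ⌋, ⌊z.im / δ⌋) - z).im = δ * (⌊z.im / δ⌋ + 1 / 2) - z.im := by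
    simp [ctr, pt]
  rw [e1, e2]
  have b1 : |δ * (⌊z.re / δ⌋ + 1 / 2) - z.re| ≤ δ / 2 := abs_le.2 ⟨by linarith, by linarith⟩
  have b2 : |δ * (⌊z.im / δ⌋ + 1 / 2) - z.im| ≤ δ / 2 := abs_le.2 ⟨by linarith, by linarith⟩
  linarith

section

variable {Φ : (ℝ × ℝ) ≃ₜ (ℝ × ℝ)} {ψ : ℂ → ℂ} {δ : ℕ → ℝ} {N k : ℕ → ℕ}
  {p : ∀ n, ZMod (N n) → ℤ × ℤ} {S : ℕ → Finset (ℤ × ℤ)} {ψn : ℕ → ℂ → ℂ}

/-- **The conformal part**: a polygon with `PO` contains the origin, its coordinates are bounded, and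
the angle of the origin is close to the angle of `g_t (b e^{i θ}) - W_t`. -/
theorem sh_close (H : Set6 Φ ψ δ N k p S ψn) {T R Y Rb : ℝ} (hT : 0 ≤ T) (hR : 0 < R) (hY0 : 0 < Y)
    (hY : 8 * (R + 1) ≤ Y) (hY2 : 64 * (T + 1) ≤ Y ^ 2) (hRb : 0 ≤ Rb) {b : ℝ}
    (hb1 : 8 * (R + 1) ≤ b) (hb2 : 64 * (T + 1) ≤ b ^ 2) {θ : ℝ} (hθ : θ ∈ Ioo 0 Real.pi) {ε : ℝ}
    (hε : 0 < ε) : ∃ h > 0, ∃ s₁ > 0, ∀ s, 0 < s → s ≤ s₁ → ∃ B : ℤ, ∀ᶠ n in atTop,
      ∀ f : ℤ × ℤ, dist (ctr (δ n) f) (ψn n (pz b θ)) ≤ δ n → ∀ (W : ℝ → ℝ) (t : ℝ),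
      Drv (T + 1) (R + 1) W t → ∀ P : Sh2, Ok0 P →
      (∃ Q : Set ℂ, PO h (rcd (δ n) (rf f) (ψn n)) W t Y Rb Q
        (interior (region (δ n / √2 * NN s (δ n)) P.S))
        (((δ n / √2 * NN s (δ n) : ℝ) : ℂ) * P.a) (((δ n / √2 * NN s (δ n) : ℝ) : ℂ) * P.b)) →
      (∀ v : ℤ × ℤ, -1 ≤ v.1 → v.1 ≤ 0 → -1 ≤ v.2 → v.2 ≤ 0 → v ∈ P.S) ∧
      (∀ v ∈ P.S, |v.1| ≤ B ∧ |v.2| ≤ B) ∧
      ∃ x : ℝ, P.Ang x ∧ |x - (flow W t (pz b θ) - (W t : ℝ)).arg| ≤ ε := by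
  obtain ⟨Rd, hRd, cd, hcd, hconf⟩ := hconf H hY0
  have hb0 : 0 < b := by linarith
  have hsin : 0 < Real.sin θ := Real.sin_pos_of_pos_of_lt_pi hθ.1 hθ.2
  set ζ := pz b θ with hζdef
  have hζn : ‖ζ‖ = b := norm_pz hb0.le θ
  have hζi : ζ.im = b * Real.sin θ := im_pz b θ
  have hζ0 : 0 < ζ.im := by rw [hζi]; positivity
  obtain ⟨y₀, hy₀⟩ : ∃ y₀, y₀ = ζ.im / 2 * Real.exp (-1) := ⟨_, rfl⟩
  have hy₀0 : 0 < y₀ := by rw [hy₀]; positivity
  obtain ⟨κ₁, hκ₁, harg⟩ := arg_close (M := 3 * b) hy₀0 hε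
  obtain ⟨r, hrdef⟩ : ∃ r, r = min (ζ.im / 2) (min (b / 5) (κ₁ / 8)) := ⟨_, rfl⟩
  have hr : 0 < r := by rw [hrdef]; positivity
  have hr1 : r ≤ ζ.im / 2 := by rw [hrdef]; exact min_le_left _ _
  have hr2 : r ≤ b / 5 := by
    rw [hrdef]; exact (min_le_right _ _).trans (min_le_left _ _)
  have hr3 : r ≤ κ₁ / 8 := by
    rw [hrdef]; exact (min_le_right _ _).trans (min_le_right _ _)
  obtain ⟨h, hh, hint⟩ := intO (T := T + 1) (R := R + 1) (Y := Y) (Rd := Rd) (cd := cd) (Rb := Rb)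
    (y₀ := y₀) (M := 3 * b) (κ := κ₁ / 2) (by linarith) (by linarith) hRd hcd hRb hY0 hY hY2
    (by positivity) hy₀0 (by positivity)
  obtain ⟨c, hc, hball⟩ := ball_ev H hr (by linarith)
  -- the points of the disc
  have hpts : ∀ (W : ℝ → ℝ) (t : ℝ), Drv (T + 1) (R + 1) W t → ∀ z ∈ closedBall ζ r,
      z ∈ loewnerDomain W t ∧ y₀ ≤ (Zf W z t).im ∧ ‖Zf W z t‖ ≤ 3 * b ∧
        Zf W z t = flow W t z - W t := by
    intro W t HD z hz
    rw [mem_closedBall, dist_eq_norm] at hz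
    have k1 : 4 / 5 * b ≤ ‖z‖ := by
      have := norm_sub_norm_le ζ z
      rw [← norm_neg (z - ζ), neg_sub] at hz
      linarith
    have k2 : ‖z‖ ≤ 6 / 5 * b := by
      have := norm_sub_norm_le z ζ
      linarith
    have k3 : ζ.im / 2 ≤ z.im := by
      have h1 := (Complex.abs_im_le_norm (z - ζ)).trans hz
      rw [Complex.sub_im] at h1
      linarith [(abs_le.1 h1).1]
    have k4 : 0 < z.im := by linarith
    have k5 : 4 * (R + 1) ≤ ‖z‖ := by linarith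
    have k6 : 16 * (T + 1) ≤ ‖z‖ ^ 2 := by nlinarith
    have k7 := HD.dom k4 k5 k6
    have k8 : Zf W z t = flow W t z - W t := by
      rw [flow_gf HD.nn HD.cont.continuousOn k7, Vale.Agent.P164.Zf_eq]
    refine ⟨k7, ?_, ?_, k8⟩
    · refine le_trans ?_ (HD.im_ge k4 k5 k6)
      rw [hy₀]
      exact mul_le_mul_of_nonneg_right k3 (Real.exp_pos _).le
    · rw [k8]
      obtain ⟨-, -, m1, -⟩ := HD.far (z := z) (by linarith) k5 k6
      have m2 : ‖flow W t z - W t‖ ≤ ‖flow W t z - z‖ + ‖z‖ + ‖(W t : ℂ)‖ := by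
        have e : flow W t z - W t = (flow W t z - z) + z - W t := by ring
        rw [e]
        exact (norm_sub_le _ _).trans (by gcongr; exact norm_add_le _ _)
      rw [Complex.norm_real, Real.norm_eq_abs] at m2
      have m3 := HD.bdd t ⟨HD.nn, le_rfl⟩
      linarith
  refine ⟨h, hh, c / 4, by positivity, fun s hs hss => ?_⟩
  refine ⟨⌈2 * (Rb + Rd) / s⌉ + 1, ?_⟩
  have hδ0 : ∀ n, 0 < δ n := fun n => (H.appr.1 n).1
  have hδt : Tendsto δ atTop (𝓝 0) := H.appr.2.1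
  have hδs : ∀ᶠ n in atTop, δ n < min (c / 4) (s / 8) :=
    (tendsto_order.1 hδt).2 _ (by positivity)
  filter_upwards [hconf, hball, hδs] with n hn1 hn2 hn3 f hf W t HD P hP hPO
  have hdn := hδ0 n
  have hd1 : δ n < c / 4 := hn3.trans_le (min_le_left _ _)
  have hd2 : δ n < s / 8 := hn3.trans_le (min_le_right _ _)
  have hsq : 0 < √(2 : ℝ) := by positivity
  have hd3 : δ n / √2 ≤ δ n := by
    rw [div_le_iff₀ hsq]
    have : (1 : ℝ) ≤ √2 := Real.one_le_sqrt.2 (by norm_num)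
    nlinarith
  obtain ⟨hl1, hl2⟩ := NN_bd hs hdn
  set l := δ n / √2 * NN s (δ n) with hldef
  have hl0 : s / 2 ≤ l := by linarith
  have hl : 0 < l := by linarith
  obtain ⟨Q, hPO⟩ := hPO
  obtain ⟨φ, hφ, -, hφc⟩ := hint _ (rcd_conf hn1 (δ n) (rf f)) W t HD Q _ _ _ hPO
  -- the rotated disc
  have hdisc : ∀ u : ℂ, ‖u‖ < c / 2 → ∃ z ∈ closedBall ζ r, rcd (δ n) (rf f) (ψn n) z = u := by
    intro u hu
    set α : ℂ := (1 + Complex.I) / ((√2 : ℝ) : ℂ) with hα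
    have hαn : ‖α‖ = 1 := norm_al
    have hα0 : α ≠ 0 := al_ne
    have h1 : α⁻¹ * u + ctr (δ n) f ∈ ball (ψn n ζ) c := by
      rw [mem_ball]
      calc dist (α⁻¹ * u + ctr (δ n) f) (ψn n ζ)
          ≤ dist (α⁻¹ * u + ctr (δ n) f) (ctr (δ n) f) + dist (ctr (δ n) f) (ψn n ζ) :=
            dist_triangle _ _ _
        _ < c / 2 + c / 2 := by
            refine add_lt_add_of_lt_of_le ?_ (hf.trans (by linarith))
            rw [dist_eq_norm, add_sub_cancel_right, norm_mul, norm_inv, hαn, inv_one, one_mul]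
            exact hu
        _ = c := by ring
    obtain ⟨z, hz, hz'⟩ := hn2 h1
    refine ⟨z, hz, ?_⟩
    rw [rcd, hz', ← hα, mul_add, mul_inv_cancel_left₀ hα0, hα, al_ctr, add_neg_cancel_right]
  obtain ⟨z, hz, hz0⟩ := hdisc 0 (by rw [norm_zero]; positivity)
  obtain ⟨p1, p2, p3, p4⟩ := hpts W t HD z hz
  refine ⟨?_, ?_, ?_⟩
  · intro v v1 v2 v3 v4
    have h1 := norm_center hl v1 v2 v3 v4
    obtain ⟨z', hz', e⟩ := hdisc _ (lt_of_le_of_lt h1 (by linarith))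
    obtain ⟨m1, m2, m3, -⟩ := hpts W t HD z' hz'
    obtain ⟨m4, -⟩ := hφc z' m1 m2 m3
    rw [e] at m4
    exact center_mem hl (interior_subset (hPO.subP m4))
  · intro v hv
    have h1 := hPO.bdd _ (center_int hl hv)
    have hYH : (Y : ℂ) * Complex.I ∈ HH := by
      show 0 < ((Y : ℂ) * Complex.I).im
      rw [im_mulI]; exact hY0
    have hzH : z ∈ HH := by
      rw [mem_closedBall, dist_eq_norm] at hz
      have h1 := (Complex.abs_im_le_norm (z - ζ)).trans hz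
      rw [Complex.sub_im] at h1
      have := (abs_le.1 h1).1
      show 0 < z.im
      linarith
    have h2 := (rcd_conf hn1 (δ n) (rf f)).bdd _ hYH _ hzH
    rw [hz0, sub_zero] at h2
    set x := (l : ℂ) * (pt v + (1 + Complex.I) / 2) with hx
    have h3 : ‖x‖ ≤ Rb + Rd := by
      have e : x = (x - rcd (δ n) (rf f) (ψn n) (Y * Complex.I)) +
        rcd (δ n) (rf f) (ψn n) (Y * Complex.I) := by ring
      rw [e]
      exact (norm_add_le _ _).trans (add_le_add h1 h2)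
    have e1 : x.re = l * (v.1 + 1 / 2) := by rw [hx, Complex.re_ofReal_mul]; simp [pt]
    have e2 : x.im = l * (v.2 + 1 / 2) := by rw [hx, Complex.im_ofReal_mul]; simp [pt]
    have key : ∀ y : ℤ, |l * ((y : ℝ) + 1 / 2)| ≤ Rb + Rd → |y| ≤ ⌈2 * (Rb + Rd) / s⌉ + 1 := by
      intro y hy
      rw [abs_mul, abs_of_pos hl] at hy
      have h4 : |(y : ℝ) + 1 / 2| ≤ 2 * (Rb + Rd) / s := by
        rw [le_div_iff₀ hs]
        have := abs_nonneg ((y : ℝ) + 1 / 2)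
        nlinarith
      have h5 : |(y : ℝ)| ≤ (⌈2 * (Rb + Rd) / s⌉ : ℝ) + 1 := by
        have h6 := Int.le_ceil (2 * (Rb + Rd) / s)
        obtain ⟨a1, a2⟩ := abs_le.1 (h4.trans h6)
        exact abs_le.2 ⟨by linarith, by linarith⟩
      exact_mod_cast h5
    refine ⟨key _ ?_, key _ ?_⟩
    · rw [← e1]; exact (Complex.abs_re_le_norm _).trans h3
    · rw [← e2]; exact (Complex.abs_im_le_norm _).trans h3
  · obtain ⟨-, w, hw, hφw, hwc⟩ := hφc z p1 p2 p3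
    refine ⟨w.arg, ⟨_, w, isU_scale hl hφ, hw, ?_, rfl⟩, ?_⟩
    · rw [hφw, hz0, mul_zero]
    · obtain ⟨q1, q2, q3, q4⟩ := hpts W t HD ζ (mem_closedBall_self hr.le)
      rw [← q4]
      refine harg _ w q2 q3 ?_
      rw [mem_closedBall, dist_eq_norm] at hz
      have h1 := flow_lip HD (ζ := ζ) (z := z) (by rw [hζn]; exact hb0) (by rw [hζn]; exact hb1)
        (by rw [hζn]; exact hb2) (by rw [hζn]; linarith)
      have e : w - Zf W ζ t = (w - Zf W z t) + (flow W t z - flow W t ζ) := by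
        rw [p4, q4]; ring
      rw [e]
      refine (norm_add_le _ _).trans ?_
      linarith

end

end Vale.Agent.P167.H638.Q.G2
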