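import Vale.Agent.P167.H638.G2.Lat
import Vale.Agent.P167.H713.Q.UpS
import Vale.Agent.P167.H713.Q.BadJ2

/-!
# P167, Stage II, [GEO-ASM2] (7): `Up2`, `Lo2` from 713's seam without common part
-/

set_option autoImplicit false

namespace Vale.Agent.P167.H638.Q.G2

open Set Filter Topology Metric Relation
open Vale.Agent.P145.FB (PStep)
open Vale.Agent.P167.E6 Vale.Agent.P167.E2
open Vale.Agent.P167.H634 (RO LO SqD Sq1)
open Vale.Agent.P167.H72.SD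
open Vale.Agent.P167.H161 (zp Rd mem_Rd)
open Vale.Agent.P167.FKA (Cor)
open Vale.Agent.P167.H718 (Dq etaQ)
open Vale.Agent.P167.H713.Q (Seam NL EE TT Bad Io Dn inn mem_E' mem_EE mem_TT EE_step)

variable {n m : ℕ} {p : ZMod n → ℤ × ℤ} {k : ℕ} {S : Finset (ℤ × ℤ)}
  {A : Finset (Sym2 (ℤ × ℤ))} {j : ℕ} {δ : ℝ} {c : Bool} {ρ R : ℕ}
  {pP : ZMod m → ℤ × ℤ} {kP : ℕ} {SP : Finset (ℤ × ℤ)} {x₀ : ℤ × ℤ} {Pm O : Set ℂ}

/-- 713's seam for the polygon, without common part. -/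
abbrev SeamP (c : Bool) (p : ZMod n → ℤ × ℤ) (k : ℕ) (S : Finset (ℤ × ℤ))
    (A : Finset (Sym2 (ℤ × ℤ))) (j : ℕ) (δ : ℝ) (Bd : Finset (ℤ × ℤ)) (pP : ZMod m → ℤ × ℤ)
    (kP : ℕ) (SP : Finset (ℤ × ℤ)) (x₀ : ℤ × ℤ) (Pm O : Set ℂ) : Prop :=
  Seam c p k S A j δ Bd (Dq SP pP kP) (etaQ pP kP) (OutF S) (Wr (Dq SP pP kP) (etaQ pP kP))
    (OutF SP) x₀ Pm O ∅

/-- The chained squares. -/
noncomputable abbrev EP (p : ZMod n → ℤ × ℤ) (k : ℕ) (S : Finset (ℤ × ℤ))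
    (A : Finset (Sym2 (ℤ × ℤ))) (j : ℕ) (Bd : Finset (ℤ × ℤ)) (pP : ZMod m → ℤ × ℤ)
    (kP : ℕ) (SP : Finset (ℤ × ℤ)) (x₀ : ℤ × ℤ) : Finset (ℤ × ℤ) :=
  EE (TT p k S A j Bd (Dq SP pP kP)) S x₀

/-- **The lower bound.** -/
theorem up2_of (h : SeamP true p k S A j δ (Bad p k S A j δ true ρ R) pP kP SP x₀ Pm O)
    (N : NL p k S A j δ) (hδ : 0 < δ) (hp : IsPolygon p) (hS : Encloses p S) (hk : 0 < k)
    (hkn : k + 1 < n) (hA : A ⊆ edges S) (hj : j - 1 ≤ len p k A) (hρ : ρ ≤ R) :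
    Up2 p k S A j (Bad p k S A j δ true ρ R)
      (EP p k S A j (Bad p k S A j δ true ρ R) pP kP SP x₀) pP kP SP where
  bad := by
    intro x hx
    exact (H713.Q.mem_Bad.1 hx).1
  badj v hv s hs hvs := H713.Q.badj_up hδ hp hS hk hkn hA hj hρ hv hs hvs
  sub := by
    intro x hx
    obtain ⟨h1, h2, -⟩ := mem_E' hx
    exact Finset.mem_sdiff.2 ⟨h1, h2⟩
  subP := fun x hx => (mem_E' hx).2.2
  cl := by
    intro x hx y hy hyP s hxs hys
    by_cases hs : inn S s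
    · exact h.cl hx hy hyP hs hxs hys
    · obtain ⟨h3, h4⟩ := H713.Q.not_inn hs
      obtain ⟨⟨w, hw, -⟩, -, -⟩ := h.up_bxo N hδ hA hj hx h3 hxs h4
      exact hw.elim
  t3 := fun x hx u hu s hxs hus o ho => h.up_t3 N hδ hA hj hx hu hxs hus ho
  t4w := fun x hx y hy hyP hζ s hs hxs hys => (h.up_t4w hδ hA hj hx hy hyP hζ hs hxs hys).elim
  t4 := fun x hx y hy hyP s hs hxs hys => h.up_t4 N hδ hA hj hx hy hyP hs hxs hys
  bx := by
    intro x hx y hy s hs hxs hys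
    rcases N.n5 x (mem_E' hx).1 y hy s hs hxs hys with h1 | ⟨u, hu, o, ho, hus, huo, hoS⟩ |
      ⟨u, hu, o, ho, hus, huo⟩
    · exact h1
    · exact (h.near_site hδ hA hj hx hu (Or.inl hs) hxs hus (N.n3 u hu o ho huo hoS)).elim
    · exact (h.near_site hδ hA hj hx hu (Or.inl hs) hxs hus (N.n1 u hu o ho huo)).elim
  arc := by
    rintro x hx s ⟨f, hf, rfl⟩ hxs
    have hodd : ((H192.rf f).1 + (H192.rf f).2) % 2 = 1 :=
      Int.not_even_iff.1 (H192.odd_rf f)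
    have hS' : H192.rf' (H192.rf f) ∉ S := by rw [H192.rf'_rf]; exact hf
    obtain ⟨⟨w, hw, -⟩, -, -⟩ := h.up_bxo N hδ hA hj hx hodd hxs hS'
    exact hw.elim

/-- **The upper bound.** -/
theorem lo2_of (h : SeamP false p k S A j δ (Bad p k S A j δ false ρ R) pP kP SP x₀ Pm O)
    (N : NL p k S A j δ) (hδ : 0 < δ) (hp : IsPolygon p) (hS : Encloses p S) (hk : 0 < k)
    (hkn : k + 1 < n) (hA : A ⊆ edges S) (hj : j - 1 ≤ len p k A) (hρ : ρ ≤ R) :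
    Lo2 p k S A j (Bad p k S A j δ false ρ R)
      (EP p k S A j (Bad p k S A j δ false ρ R) pP kP SP x₀) pP kP SP where
  bad := by
    intro x hx
    exact (H713.Q.mem_Bad.1 hx).1
  badj := by
    intro v hv s hs hvs
    obtain ⟨t, ht, h1⟩ := H713.Q.badj_lo (W := OutF S) hδ hp hS hk hkn hA hj hρ
      (fun v _ s hs _ hS' => mem_outF hs hS') hv hs hvs
    exact ⟨t, ht.symm, h1⟩
  sub := by
    intro x hx
    obtain ⟨h1, h2, -⟩ := mem_E' hx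
    exact Finset.mem_sdiff.2 ⟨h1, h2⟩
  subP := fun x hx => (mem_E' hx).2.2
  cl := fun x hx y hy hyP s hs hxs hys => h.cl hx hy hyP hs hxs hys
  t3 := fun x hx u hu s hs hxs hus o ho => h.lo_t3 N hδ hA hj hx hu hs hxs hus ho
  t4 := fun x hx y hy hyP s hs hxs hys =>
    (h.lo_t4 hδ hA hj hx hy hyP (Or.inl hs) hxs hys).1 hs
  t4o := fun x hx y hy hyP s hs hsS hxs hys =>
    (h.lo_t4 hδ hA hj hx hy hyP (Or.inr hsS) hxs hys).2 hs
  bxe := by
    intro x hx y hy ho s hs hxs hys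
    obtain ⟨i, h1, h2, rfl⟩ := H713.Q.wired_of_open hp hA hy ho hs hys
    obtain ⟨w, hw, -⟩ := h.near_self hδ hA hj hx (N.n4 x (mem_E' hx).1 i h1 h2 hxs)
    exact hw
  bxi := by
    intro x hx s hs hsS hxs u hu hus y hy hyo o ho huo hyo'
    obtain ⟨i, h1, h2, rfl⟩ := H713.Q.wired_of_open hp hA hy hyo ho hyo'
    exact (h.near_site hδ hA hj hx hu (Or.inr hsS) hxs hus (N.n4 u hu i h1 h2 huo)).elim

/-- The squares around an odd site are chained. -/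
theorem four {T : Finset (ℤ × ℤ)} {s : ℤ × ℤ} (h : ∀ v, Cor v s → v ∈ T) {x : ℤ × ℤ}
    (hx : Cor x s) {v : ℤ × ℤ} (hv : Cor v s) : v ∈ EE T S x := by
  have key : ∀ v w : ℤ × ℤ, Cor v s → Cor w s → (v.1 = w.1 ∨ v.2 = w.2) →
      v ∈ EE T S x → w ∈ EE T S x := by
    rintro ⟨v1, v2⟩ ⟨w1, w2⟩ hv hw h1 h2
    -- the common edge has two ends, one of them even
    obtain ⟨s1, s2⟩ := s
    have hv' := hv
    have hw' := hw
    obtain ⟨a1, a2⟩ := hv'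
    obtain ⟨b1, b2⟩ := hw'
    dsimp only at a1 a2 b1 b2 h1
    rcases h1 with h1 | h1
    · -- same column: common edge horizontal, through s, in the column
      by_cases e : (s1 + s2) % 2 = 0
      · exact EE_step h2 (h _ hw) (Or.inl e) hv hw
      · have e2 : ((2 * v1 + 1 - s1) + s2) % 2 = 0 := by omega
        refine EE_step (s := (2 * v1 + 1 - s1, s2)) h2 (h _ hw) (Or.inl e2) ⟨?_, a2⟩ ⟨?_, b2⟩
        · dsimp only; omega
        · dsimp only; omega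
    · by_cases e : (s1 + s2) % 2 = 0
      · exact EE_step h2 (h _ hw) (Or.inl e) hv hw
      · have e2 : (s1 + (2 * v2 + 1 - s2)) % 2 = 0 := by omega
        refine EE_step (s := (s1, 2 * v2 + 1 - s2)) h2 (h _ hw) (Or.inl e2) ⟨a1, ?_⟩ ⟨b1, ?_⟩
        · dsimp only; omega
        · dsimp only; omega
  have h0 : x ∈ EE T S x := mem_EE.2 ⟨h x hx, ReflTransGen.refl⟩
  have h1 : Cor (x.1, v.2) s := ⟨hx.1, hv.2⟩
  have h2 := key x (x.1, v.2) hx h1 (Or.inl rfl) h0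
  exact key (x.1, v.2) v h1 hv (Or.inr rfl) h2

end Vale.Agent.P167.H638.Q.G2
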