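import Vale.Agent.P167.H638.G2.Conf
import Vale.Agent.P167.H212.L.Defs

/-!
# P167, Stage II, [GEO-ASM2] (2): one side of the comparison

`Side Re q c`: except on histories of small weight there is a shape which gives the lower (`c = true`)
or the upper (`c = false`) bound of the conditional probability and is close in the sense of 756's
`PO`, in the coordinates of the squares with the origin at the given odd site.
-/

set_option autoImplicit false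

open MeasureTheory ProbabilityTheory Filter Topology Set Metric

namespace Vale.Agent.P167.H638.Q.G2

open Vale.Agent.P167.H192 (cfg ro rf)
open Vale.Agent.P153.R2
open Vale.Agent.P153.R2.R1 (IsU)
open Vale.Agent.P153.R2.L1 (HH)
open Vale.Agent.P164 (loewnerDomain Zf)
open Vale.Agent.P167.E6
open Vale.Agent.P167.H411 (Set6 exn)
open Vale.Agent.P167.H756
open Vale.Agent.P167.H947 (flow)
open Vale.Agent.P167.H212 (pz)
open Vale.Agent.P167.H212.L (Sh2 ZDom GeoL GeoLAt)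
open Vale.Agent.P167.H397.Q (LZ)

/-- A unit lattice polygon with the marks `b` (side `0`) and `a` (side `k`); no condition on the
origin. -/
structure Ok0 (P : Sh2) : Prop where
  poly : IsPolygon P.q
  encl : Encloses P.q P.S
  k_pos : 0 < P.k
  k_lt : P.k < P.m

/-- The coordinates of the squares: the plane is rotated by 45 degrees, the origin is the site `s`. -/
noncomputable def rcd (δ : ℝ) (s : ℤ × ℤ) (ψ : ℂ → ℂ) (z : ℂ) : ℂ :=
  (1 + Complex.I) / ((√2 : ℝ) : ℂ) * ψ z + -(((δ / √2 : ℝ) : ℂ) * pt s)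

/-- The centre of a face. -/
noncomputable def ctr (δ : ℝ) (f : ℤ × ℤ) : ℂ := (δ : ℂ) * (pt f + (1 + Complex.I) / 2)

/-- The number of squares per unit of the shapes of mesh `s`. -/
noncomputable def NN (s δ : ℝ) : ℕ := 4 * ⌊s / (4 * (δ / √2))⌋₊

/-- One side of the comparison at one history: `W`, `t` driver and capacity, `v` the conditional
probability. -/
def SideAt (Re : Sh2 → ℕ → ℤ × ℤ → ZDom → Prop) (q : ℝ) (c : Bool) (h ε Y Rb δ : ℝ) (ψ : ℂ → ℂ)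
    (W : ℝ → ℝ) (t : ℝ) (N : ℕ) (f : ℤ × ℤ) (v : ℝ) : Prop :=
  ∃ P : Sh2, Ok0 P ∧
    (∃ Q : Set ℂ, PO h (rcd δ (rf f) ψ) W t Y Rb Q (interior (region (δ / √2 * N) P.S))
      (((δ / √2 * N : ℝ) : ℂ) * P.a) (((δ / √2 * N : ℝ) : ℂ) * P.b)) ∧
    ∀ D : ZDom, Re P N (rf f) D → if c = true then D.pr q - ε ≤ v else v ≤ D.pr q + ε

/-- One side of the comparison. -/
def Side (Re : Sh2 → ℕ → ℤ × ℤ → ZDom → Prop) (q : ℝ) (c : Bool) : Prop :=
  ∀ (Φ : (ℝ × ℝ) ≃ₜ (ℝ × ℝ)) (ψ : ℂ → ℂ)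
  (δ : ℕ → ℝ) (N k : ℕ → ℕ) (p : ∀ n, ZMod (N n) → ℤ × ℤ) (S : ℕ → Finset (ℤ × ℤ))
  (ψn : ℕ → ℂ → ℂ), Set6 Φ ψ δ N k p S ψn → ∀ T R : ℝ, 0 ≤ T → 0 < R →
    ∃ b₁ : ℝ, ∀ b : ℝ, b₁ ≤ b → ∀ θ ∈ Ioo 0 Real.pi, ∀ Y : ℝ, 0 < Y → 8 * (R + 1) ≤ Y →
      64 * (T + 1) ≤ Y ^ 2 → ∃ Rb : ℝ, 0 ≤ Rb ∧ ∀ h : ℝ, 0 < h → ∀ ε : ℝ, 0 < ε →
      ∃ s₀ : ℝ, 0 < s₀ ∧ ∀ s : ℝ, 0 < s → s ≤ s₀ → ∀ᶠ n in atTop, ∀ f : ℤ × ℤ,
        dist (ctr (δ n) f) (ψn n (pz b θ)) ≤ δ n →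
        ∀ κ : Finset (Sym2 (ℤ × ℤ)) → ℕ, QE.BefIx (exn δ N k p S ψn n) T R κ →
        QE.ExW (exn δ N k p S ψn n).C (QE.wq q (N n) (p n) (k n) (S n))
          ({A | ¬ SideAt Re q c h ε Y Rb (δ n) (ψn n) ((exn δ N k p S ψn n).W A)
            ((exn δ N k p S ψn n).c A (κ A)) (NN s (δ n)) f
            (QE.cexW (exn δ N k p S ψn n) (QE.wq q (N n) (p n) (k n) (S n))
              (fun A' => (LZ (ro (p n (-1))) (rf f)).indicator 1
                (cfg (Final.wiredOpen (p n) (k n) A'))) A (κ A))}.indicator 1) ≤ ε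

/-! ### Elementary facts -/

theorem norm_al : ‖(1 + Complex.I) / ((√2 : ℝ) : ℂ)‖ = 1 := by
  have h1 : ‖(1 : ℂ) + Complex.I‖ = √2 := by
    rw [Complex.norm_def, Complex.normSq_apply]
    norm_num
  rw [norm_div, h1, Complex.norm_real, Real.norm_of_nonneg (Real.sqrt_nonneg _),
    div_self (by positivity)]

theorem al_ne : (1 + Complex.I) / ((√2 : ℝ) : ℂ) ≠ 0 := by
  rw [← norm_pos_iff, norm_al]; norm_num

/-- The centre of the face is the origin of the rotated coordinates. -/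
theorem al_ctr (δ : ℝ) (f : ℤ × ℤ) :
    (1 + Complex.I) / ((√2 : ℝ) : ℂ) * ctr δ f = ((δ / √2 : ℝ) : ℂ) * pt (rf f) := by
  have h2 : ((√2 : ℝ) : ℂ) ≠ 0 := by
    exact_mod_cast (Real.sqrt_pos.2 (by norm_num : (0 : ℝ) < 2)).ne'
  have h1 : (1 + Complex.I) * (pt f + (1 + Complex.I) / 2) = pt (rf f) := by
    apply Complex.ext
    · simp [pt, rf]
    · simp [pt, rf]
      ring
  rw [← h1, ctr]
  push_cast
  field_simp

theorem rcd_sub (δ : ℝ) (s : ℤ × ℤ) (ψ : ℂ → ℂ) (z w : ℂ) :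
    ‖rcd δ s ψ z - rcd δ s ψ w‖ = ‖ψ z - ψ w‖ := by
  rw [rcd, rcd, add_sub_add_right_eq_sub, ← mul_sub, norm_mul, norm_al, one_mul]

theorem rcd_conf {Rd cd Y : ℝ} {ψ : ℂ → ℂ} (H : HConf Rd cd Y ψ) (δ : ℝ) (s : ℤ × ℤ) :
    HConf Rd cd Y (rcd δ s ψ) := by
  have h := H.affine al_ne (-(((δ / √2 : ℝ) : ℂ) * pt s))
  rw [norm_al, one_mul, one_mul] at h
  exact h

/-! ### Finiteness -/

theorem mem_face {v : ℤ × ℤ} {r : Fin 4} {B : ℤ} (h : |(face v r).1| ≤ B ∧ |(face v r).2| ≤ B) :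
    |v.1| ≤ B + 1 ∧ |v.2| ≤ B + 1 := by
  obtain ⟨h1, h2⟩ := h
  obtain ⟨x, y⟩ := v
  rw [abs_le] at h1 h2
  fin_cases r <;> simp [face] at h1 h2 ⊢ <;> rw [abs_le, abs_le] <;> omega

/-- The shapes with bounded coordinates are finitely many. -/
theorem fin_sh (B : ℤ) : {P : Sh2 | Ok0 P ∧ ∀ v ∈ P.S, |v.1| ≤ B ∧ |v.2| ≤ B}.Finite := by
  classical
  set box : Finset (ℤ × ℤ) := Finset.Icc (-(B + 1)) (B + 1) ×ˢ Finset.Icc (-(B + 1)) (B + 1)
    with hbox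
  have hmem : ∀ v : ℤ × ℤ, |v.1| ≤ B + 1 ∧ |v.2| ≤ B + 1 → v ∈ box := by
    rintro v ⟨h1, h2⟩
    rw [hbox, Finset.mem_product, Finset.mem_Icc, Finset.mem_Icc]
    exact ⟨abs_le.1 h1, abs_le.1 h2⟩
  refine Set.Finite.subset (s := ⋃ m ∈ {m : ℕ | 0 < m ∧ m ≤ box.card},
    (fun x : (ZMod m → ℤ × ℤ) × Finset (ℤ × ℤ) × ℕ => (⟨m, x.1, x.2.1, x.2.2⟩ : Sh2)) ''
      ({q | ∀ i, q i ∈ (box : Set (ℤ × ℤ))} ×ˢ ({S | S ⊆ box} ×ˢ {k | k < m}))) ?_ ?_
  · refine Set.Finite.biUnion ((Set.finite_le_nat box.card).subset fun m hm => hm.2) ?_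
    rintro m ⟨hm, -⟩
    have : NeZero m := ⟨hm.ne'⟩
    refine Set.Finite.image _ (Set.Finite.prod ?_ (Set.Finite.prod ?_ (Set.finite_lt_nat m)))
    · have h := Set.Finite.pi' (ι := ZMod m) (t := fun _ => (box : Set (ℤ × ℤ)))
        fun _ => box.finite_toSet
      exact h
    · exact (box.powerset.finite_toSet).subset fun S hS => by
        rw [Finset.mem_coe, Finset.mem_powerset]; exact hS
  · rintro ⟨m, q, S, k⟩ ⟨hok, hb⟩
    have hq : ∀ i, q i ∈ box := by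
      intro i
      obtain ⟨r, hr⟩ := hok.poly.2.2 i
      have h1 := ((hok.encl (q i) r).1 ⟨i, rfl, hr⟩).1
      exact hmem _ (mem_face (hb _ h1))
    have hm : 2 < m := hok.poly.1
    have : NeZero m := ⟨by omega⟩
    refine mem_biUnion (x := m) ⟨by omega, ?_⟩ ⟨(q, S, k), ⟨fun i => Finset.mem_coe.2 (hq i),
      fun v hv => hmem v ?_, hok.k_lt⟩, rfl⟩
    · have h1 := Finset.card_le_card_of_injOn (s := (Finset.univ : Finset (ZMod m))) (t := box) q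
        (fun i _ => hq i) (hok.poly.2.1.injOn)
      rwa [Finset.card_univ, ZMod.card] at h1
    · obtain ⟨h1, h2⟩ := hb v hv
      exact ⟨by linarith, by linarith⟩

end Vale.Agent.P167.H638.Q.G2
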